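/-
R302 / Real / Spec   (owner: helper234, prefix `real_`, `rl`)

Gelfand spectrum `RlX 𝒜` of a commutative C*-algebra with enough projections:
clopen sets <-> projections, the sigma-algebra generated by the clopen sets, the Riesz measure of a state,
approximation of measurable sets / finite valued measurable functions by clopen sets / locally constant functions.
-/
import Mathlib

set_option autoImplicit false

namespace Claimed.Agent.R302

open MeasureTheory WeakDual
open scoped BigOperators ComplexConjugate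

noncomputable section

universe u

/-- the Gelfand spectrum -/
abbrev RlX (𝒜 : Type u) [CommCStarAlgebra 𝒜] : Type u := characterSpace ℂ 𝒜

variable {𝒜 : Type u} [CommCStarAlgebra 𝒜]

theorem real_continuous_apply (a : 𝒜) : Continuous fun x : RlX 𝒜 => x a :=
  (gelfandTransform ℂ 𝒜 a).continuous

theorem real_ext {a b : 𝒜} (h : ∀ x : RlX 𝒜, x a = x b) : a = b :=
  (gelfandStarTransform 𝒜).injective (ContinuousMap.ext h)

/-- inverse Gelfand transform -/
def rlOfC (f : C(RlX 𝒜, ℂ)) : 𝒜 := (gelfandStarTransform 𝒜).symm f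

@[simp] theorem real_apply_rlOfC (f : C(RlX 𝒜, ℂ)) (x : RlX 𝒜) : x (rlOfC f) = f x := by
  have h := (gelfandStarTransform 𝒜).apply_symm_apply f
  have h2 := gelfandStarTransform_apply_apply 𝒜 (rlOfC f) x
  rw [← h2]
  exact congrArg (fun F : C(RlX 𝒜, ℂ) => F x) h

theorem real_norm_apply_le (x : RlX 𝒜) (a : 𝒜) : ‖x a‖ ≤ ‖a‖ := by
  have h1 : ‖gelfandTransform ℂ 𝒜 a‖ = ‖a‖ :=
    (AddMonoidHomClass.isometry_iff_norm _).1 (gelfandTransform_isometry (A := 𝒜)) a
  rw [← h1]
  exact (gelfandTransform ℂ 𝒜 a).norm_coe_le_norm x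

theorem real_apply_star (x : RlX 𝒜) (a : 𝒜) : x (star a) = conj (x a) := map_star x a

theorem real_apply_star_mul_self (x : RlX 𝒜) (c : 𝒜) : x (star c * c) = ((‖x c‖ ^ 2 : ℝ) : ℂ) := by
  rw [map_mul, real_apply_star, Complex.conj_mul']
  push_cast
  rfl

theorem real_proj_apply {e : 𝒜} (he : IsStarProjection e) (x : RlX 𝒜) : x e = 0 ∨ x e = 1 := by
  have h : x e * x e = x e := by rw [← map_mul, he.isIdempotentElem.eq]
  have h2 : x e * (x e - 1) = 0 := by rw [mul_sub, h, mul_one, sub_self]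
  rcases mul_eq_zero.1 h2 with h3 | h3
  · exact Or.inl h3
  · exact Or.inr (sub_eq_zero.1 h3)

theorem real_isStarProjection_of_apply {e : 𝒜} (h : ∀ x : RlX 𝒜, x e = 0 ∨ x e = 1) :
    IsStarProjection e := by
  refine ⟨real_ext fun x => ?_, real_ext fun x => ?_⟩
  · rw [map_mul]; rcases h x with h | h <;> simp [h]
  · rw [real_apply_star]; rcases h x with h | h <;> simp [h]

/-- the clopen set of a projection -/
def rlSet (e : 𝒜) : Set (RlX 𝒜) := {x | x e = 1}

theorem real_isClopen_rlSet {e : 𝒜} (he : IsStarProjection e) : IsClopen (rlSet e) := by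
  constructor
  · exact isClosed_eq (real_continuous_apply e) continuous_const
  · have : rlSet e = {x : RlX 𝒜 | x e ≠ 0} := by
      ext x
      rcases real_proj_apply he x with h | h <;> simp [rlSet, h]
    rw [this]
    exact isOpen_ne_fun (real_continuous_apply e) continuous_const

open Classical in
/-- the projection of a clopen set (junk `0` otherwise) -/
def rlProj (s : Set (RlX 𝒜)) : 𝒜 :=
  if hs : IsClopen s then rlOfC (LocallyConstant.charFn ℂ hs : C(RlX 𝒜, ℂ)) else 0

open Classical in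
theorem real_apply_rlProj {s : Set (RlX 𝒜)} (hs : IsClopen s) (x : RlX 𝒜) :
    x (rlProj s) = if x ∈ s then 1 else 0 := by
  rw [rlProj, dif_pos hs, real_apply_rlOfC]
  simp [LocallyConstant.coe_charFn, Set.indicator_apply]

theorem real_isStarProjection_rlProj {s : Set (RlX 𝒜)} (hs : IsClopen s) :
    IsStarProjection (rlProj s) := by
  classical
  refine real_isStarProjection_of_apply fun x => ?_
  rw [real_apply_rlProj hs]
  by_cases h : x ∈ s <;> simp [h]

theorem real_rlSet_rlProj {s : Set (RlX 𝒜)} (hs : IsClopen s) : rlSet (rlProj s) = s := by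
  classical
  ext x
  simp only [rlSet, Set.mem_ofPred_eq, real_apply_rlProj hs]
  by_cases h : x ∈ s <;> simp [h]

/-! ### the sigma-algebra generated by the clopen sets -/

/-- the sigma-algebra generated by the clopen sets -/
instance rlMS : MeasurableSpace (RlX 𝒜) := MeasurableSpace.generateFrom {s | IsClopen s}

theorem real_measurableSet_of_isClopen {s : Set (RlX 𝒜)} (hs : IsClopen s) : MeasurableSet s :=
  MeasurableSpace.measurableSet_generateFrom hs

theorem real_rlMS_le_borel : (rlMS : MeasurableSpace (RlX 𝒜)) ≤ borel (RlX 𝒜) :=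
  MeasurableSpace.generateFrom_le fun _ hs => MeasurableSpace.measurableSet_generateFrom hs.isOpen

theorem real_measurable_of_continuous {f : RlX 𝒜 → RlX 𝒜} (hf : Continuous f) : Measurable f :=
  measurable_generateFrom fun _ hs => real_measurableSet_of_isClopen (hs.preimage hf)

theorem real_measurable_of_isLocallyConstant {Y : Type*} [MeasurableSpace Y] {f : RlX 𝒜 → Y}
    (hf : IsLocallyConstant f) : Measurable f := fun s _ =>
  real_measurableSet_of_isClopen ⟨⟨by rw [← Set.preimage_compl]; exact hf _⟩, hf s⟩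

/-- finite spectrum approximation in `𝒜` -/
def RlApprox (𝒜 : Type u) [CommCStarAlgebra 𝒜] : Prop :=
  ∀ a : 𝒜, IsSelfAdjoint a → ∀ ε : ℝ, 0 < ε → ∃ (n : ℕ) (e : Fin n → 𝒜) (c : Fin n → ℝ),
    (∀ i, IsStarProjection (e i)) ∧ ‖a - ∑ i, (c i : ℂ) • e i‖ ≤ ε



theorem real_measurable_proj_apply {e : 𝒜} (he : IsStarProjection e) :
    Measurable fun x : RlX 𝒜 => x e := by
  classical
  have h : (fun x : RlX 𝒜 => x e) = Set.indicator (rlSet e) (fun _ => (1 : ℂ)) := by
    funext x
    rcases real_proj_apply he x with h | h <;> simp [rlSet, h]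
  rw [h]
  exact measurable_const.indicator (real_measurableSet_of_isClopen (real_isClopen_rlSet he))

theorem real_measurable_apply_of_isSelfAdjoint (h : RlApprox 𝒜) {b : 𝒜} (hb : IsSelfAdjoint b) :
    Measurable fun x : RlX 𝒜 => x b := by
  have hpos : ∀ k : ℕ, (0 : ℝ) < 1 / ((k : ℝ) + 1) := fun k => by positivity
  choose n e c he hle using fun k : ℕ => h b hb (1 / ((k : ℝ) + 1)) (hpos k)
  refine measurable_of_tendsto_metrizable
    (f := fun k (x : RlX 𝒜) => x (∑ i, (c k i : ℂ) • e k i)) (fun k => ?_) ?_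
  · have : (fun x : RlX 𝒜 => x (∑ i, (c k i : ℂ) • e k i))
        = fun x : RlX 𝒜 => ∑ i, (c k i : ℂ) * x (e k i) := by
      funext x
      rw [map_sum]
      refine Finset.sum_congr rfl fun i _ => ?_
      rw [map_smul, smul_eq_mul]
    rw [this]
    exact Finset.measurable_sum _ fun i _ =>
      measurable_const.mul (real_measurable_proj_apply (he k i))
  · rw [tendsto_pi_nhds]
    intro x
    rw [tendsto_iff_norm_sub_tendsto_zero]
    refine squeeze_zero (fun _ => norm_nonneg _) (fun k => ?_) tendsto_one_div_add_atTop_nhds_zero_nat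
    rw [← map_sub, ← norm_neg, ← map_neg, neg_sub]
    exact (real_norm_apply_le x _).trans (hle k)

/-- LEAF Spec-1. Gelfand transforms are measurable for the clopen sigma-algebra. -/
theorem real_measurable_apply (h : RlApprox 𝒜) (a : 𝒜) : Measurable fun x : RlX 𝒜 => x a := by
  have h1 := real_measurable_apply_of_isSelfAdjoint h (realPart a).2
  have h2 := real_measurable_apply_of_isSelfAdjoint h (imaginaryPart a).2
  have : (fun x : RlX 𝒜 => x a)
      = fun x : RlX 𝒜 => x (realPart a : 𝒜) + Complex.I * x (imaginaryPart a : 𝒜) := by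
    funext x
    conv_lhs => rw [← realPart_add_I_smul_imaginaryPart a]
    rw [map_add, map_smul, smul_eq_mul]
  rw [this]
  exact h1.add (measurable_const.mul h2)

/-! ### the measure of a state -/

/-- positivity of a functional, in the form used everywhere in REAL -/
def RlPos (φ : 𝒜 →ₗ[ℂ] ℂ) : Prop := ∀ a : 𝒜, ∃ s : ℝ, 0 ≤ s ∧ φ (star a * a) = s

/-- the element of `𝒜` of a real continuous function -/
def rlOfR (f : C(RlX 𝒜, ℝ)) : 𝒜 :=
  rlOfC ⟨fun x => (f x : ℂ), Complex.continuous_ofReal.comp f.continuous⟩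

@[simp] theorem real_apply_rlOfR (f : C(RlX 𝒜, ℝ)) (x : RlX 𝒜) : x (rlOfR f) = (f x : ℂ) := by
  rw [rlOfR, real_apply_rlOfC]
  rfl

/-- a positive functional is real on self-adjoint elements -/
theorem real_pos_im_eq_zero {φ : 𝒜 →ₗ[ℂ] ℂ} (hφ : RlPos φ) {b : 𝒜} (hb : IsSelfAdjoint b) :
    (φ b).im = 0 := by
  obtain ⟨s, -, hs⟩ := hφ (b + 1)
  obtain ⟨t, -, ht⟩ := hφ (b - 1)
  have h4 : (4 : ℂ) • b = star (b + 1) * (b + 1) - star (b - 1) * (b - 1) := by
    rw [star_add, star_sub, hb.star_eq, star_one]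
    have : (4 : ℂ) • b = 4 * b := by
      rw [Algebra.smul_def, map_ofNat]
    rw [this]
    ring
  have h5 : (4 : ℂ) * φ b = ((s - t : ℝ) : ℂ) := by
    rw [← smul_eq_mul, ← map_smul, h4, map_sub, hs, ht]
    push_cast
    rfl
  have h6 := congrArg Complex.im h5
  rw [Complex.ofReal_im] at h6
  simp at h6
  exact h6

/-- the real linear functional on real continuous functions -/
def rlLamLin (φ : 𝒜 →ₗ[ℂ] ℂ) : CompactlySupportedContinuousMap (RlX 𝒜) ℝ →ₗ[ℝ] ℝ where
  toFun f := (φ (rlOfR f.toContinuousMap)).re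
  map_add' f g := by
    have : rlOfR (f + g).toContinuousMap = rlOfR f.toContinuousMap + rlOfR g.toContinuousMap :=
      real_ext fun x => by simp
    rw [this, map_add, Complex.add_re]
  map_smul' c f := by
    have : rlOfR (c • f).toContinuousMap = (c : ℂ) • rlOfR f.toContinuousMap :=
      real_ext fun x => by
        rw [map_smul, smul_eq_mul, real_apply_rlOfR, real_apply_rlOfR]
        simp
    rw [this, map_smul, smul_eq_mul, Complex.re_ofReal_mul]
    rfl

theorem real_rlLamLin_nonneg {φ : 𝒜 →ₗ[ℂ] ℂ} (hφ : RlPos φ)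
    (f : CompactlySupportedContinuousMap (RlX 𝒜) ℝ) (hf : 0 ≤ f) : 0 ≤ rlLamLin φ f := by
  have hf' : ∀ x, 0 ≤ f x := fun x => hf x
  let g : C(RlX 𝒜, ℝ) := ⟨fun x => Real.sqrt (f x), Real.continuous_sqrt.comp f.continuous⟩
  have : rlOfR f.toContinuousMap = star (rlOfR g) * rlOfR g := real_ext fun x => by
    rw [map_mul, real_apply_star, real_apply_rlOfR, real_apply_rlOfR, Complex.conj_ofReal,
      ← Complex.ofReal_mul]
    congr 1
    exact (Real.mul_self_sqrt (hf' x)).symm
  obtain ⟨s, hs, hs'⟩ := hφ (rlOfR g)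
  show 0 ≤ (φ (rlOfR f.toContinuousMap)).re
  rw [this, hs', Complex.ofReal_re]
  exact hs

/-- the positive functional on real continuous functions -/
def rlLam (φ : 𝒜 →ₗ[ℂ] ℂ) (hφ : RlPos φ) :
    CompactlySupportedContinuousMap (RlX 𝒜) ℝ →ₚ[ℝ] ℝ :=
  PositiveLinearMap.mk₀ (rlLamLin φ) (real_rlLamLin_nonneg hφ)

/-- the Riesz measure on the Borel sigma-algebra -/
def rlBorelMeasure (φ : 𝒜 →ₗ[ℂ] ℂ) (hφ : RlPos φ) : @Measure (RlX 𝒜) (borel (RlX 𝒜)) :=
  @RealRMK.rieszMeasure (RlX 𝒜) _ _ (borel (RlX 𝒜)) (@BorelSpace.mk _ _ (borel _) rfl) (rlLam φ hφ) _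

theorem real_isFiniteMeasure_borel (φ : 𝒜 →ₗ[ℂ] ℂ) (hφ : RlPos φ) :
    @IsFiniteMeasure (RlX 𝒜) (borel (RlX 𝒜)) (rlBorelMeasure φ hφ) := by
  let _ : MeasurableSpace (RlX 𝒜) := borel (RlX 𝒜)
  have : BorelSpace (RlX 𝒜) := ⟨rfl⟩
  show IsFiniteMeasure (RealRMK.rieszMeasure (rlLam φ hφ))
  infer_instance

theorem real_integral_borel (φ : 𝒜 →ₗ[ℂ] ℂ) (hφ : RlPos φ) (f : C(RlX 𝒜, ℝ)) :
    @integral (RlX 𝒜) ℝ _ _ (borel (RlX 𝒜)) (rlBorelMeasure φ hφ) (fun x => f x)
      = (φ (rlOfR f)).re := by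
  let _ : MeasurableSpace (RlX 𝒜) := borel (RlX 𝒜)
  have : BorelSpace (RlX 𝒜) := ⟨rfl⟩
  exact RealRMK.integral_rieszMeasure (rlLam φ hφ) ⟨f, HasCompactSupport.of_compactSpace _⟩

/-- LEAF Spec-2 (definition + the next three theorems). The Riesz measure of a positive functional, restricted to the clopen
sigma-algebra.  (Use `RealRMK.rieszMeasure` for the Borel sigma-algebra and `Measure.trim real_rlMS_le_borel`.) -/
def rlMeasure (φ : 𝒜 →ₗ[ℂ] ℂ) (hφ : RlPos φ) : Measure (RlX 𝒜) :=
  (rlBorelMeasure φ hφ).trim real_rlMS_le_borel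

theorem real_isFiniteMeasure (φ : 𝒜 →ₗ[ℂ] ℂ) (hφ : RlPos φ) : IsFiniteMeasure (rlMeasure φ hφ) :=
  @isFiniteMeasure_trim _ _ _ _ real_rlMS_le_borel (real_isFiniteMeasure_borel φ hφ)

theorem real_isSelfAdjoint_rlOfR (f : C(RlX 𝒜, ℝ)) : IsSelfAdjoint (rlOfR f) :=
  real_ext fun x => by rw [real_apply_star, real_apply_rlOfR, Complex.conj_ofReal]

theorem real_integral_borel_apply (φ : 𝒜 →ₗ[ℂ] ℂ) (hφ : RlPos φ) (a : 𝒜) :
    @integral (RlX 𝒜) ℂ _ _ (borel (RlX 𝒜)) (rlBorelMeasure φ hφ) (fun x => x a) = φ a := by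
  let _ : MeasurableSpace (RlX 𝒜) := borel (RlX 𝒜)
  have : BorelSpace (RlX 𝒜) := ⟨rfl⟩
  have : IsFiniteMeasure (rlBorelMeasure φ hφ) := real_isFiniteMeasure_borel φ hφ
  have hint : Integrable (fun x : RlX 𝒜 => x a) (rlBorelMeasure φ hφ) :=
    Integrable.of_bound (real_continuous_apply a).aestronglyMeasurable ‖a‖
      (Filter.Eventually.of_forall fun x => real_norm_apply_le x a)
  let f1 : C(RlX 𝒜, ℝ) := ⟨fun x => (x a).re, Complex.continuous_re.comp (real_continuous_apply a)⟩
  let f2 : C(RlX 𝒜, ℝ) := ⟨fun x => (x a).im, Complex.continuous_im.comp (real_continuous_apply a)⟩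
  have ha : a = rlOfR f1 + Complex.I • rlOfR f2 := real_ext fun x => by
    rw [map_add, map_smul, smul_eq_mul, real_apply_rlOfR, real_apply_rlOfR, mul_comm]
    exact (Complex.re_add_im (x a)).symm
  have h1 := real_integral_borel φ hφ f1
  have h2 := real_integral_borel φ hφ f2
  have h3 := integral_re_add_im hint
  have e1 : φ (rlOfR f1) = ((φ (rlOfR f1)).re : ℂ) :=
    Complex.ext (by simp) (by simpa using real_pos_im_eq_zero hφ (real_isSelfAdjoint_rlOfR f1))
  have e2 : φ (rlOfR f2) = ((φ (rlOfR f2)).re : ℂ) :=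
    Complex.ext (by simp) (by simpa using real_pos_im_eq_zero hφ (real_isSelfAdjoint_rlOfR f2))
  rw [← h3]
  conv_rhs => rw [ha, map_add, map_smul, smul_eq_mul, e1, e2, ← h1, ← h2]
  rw [mul_comm Complex.I]
  rfl

theorem real_integral_apply (h : RlApprox 𝒜) (φ : 𝒜 →ₗ[ℂ] ℂ) (hφ : RlPos φ) (a : 𝒜) :
    ∫ x, x a ∂(rlMeasure φ hφ) = φ a := by
  rw [rlMeasure, ← integral_trim real_rlMS_le_borel (real_measurable_apply h a).stronglyMeasurable]
  exact real_integral_borel_apply φ hφ a

theorem real_isProbabilityMeasure (φ : 𝒜 →ₗ[ℂ] ℂ) (hφ : RlPos φ) (h1 : φ 1 = 1) :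
    IsProbabilityMeasure (rlMeasure φ hφ) := by
  constructor
  rw [rlMeasure, trim_measurableSet_eq real_rlMS_le_borel MeasurableSet.univ]
  let _ : MeasurableSpace (RlX 𝒜) := borel (RlX 𝒜)
  have : BorelSpace (RlX 𝒜) := ⟨rfl⟩
  have : IsFiniteMeasure (rlBorelMeasure φ hφ) := real_isFiniteMeasure_borel φ hφ
  have h2 := real_integral_borel_apply φ hφ 1
  simp only [map_one, h1] at h2
  rw [integral_const, Complex.real_smul, mul_one] at h2
  have h3 : (rlBorelMeasure φ hφ).real Set.univ = 1 := by exact_mod_cast h2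
  rw [measureReal_def] at h3
  rw [← ENNReal.ofReal_toReal (measure_ne_top (rlBorelMeasure φ hφ) Set.univ), h3, ENNReal.ofReal_one]

theorem real_integrable_apply (h : RlApprox 𝒜) (φ : 𝒜 →ₗ[ℂ] ℂ) (hφ : RlPos φ) (a : 𝒜) :
    Integrable (fun x : RlX 𝒜 => x a) (rlMeasure φ hφ) := by
  have := real_isFiniteMeasure φ hφ
  exact Integrable.of_bound (real_measurable_apply h a).aestronglyMeasurable ‖a‖
    (Filter.Eventually.of_forall fun x => real_norm_apply_le x a)

/-- LEAF Spec-3. -/
theorem real_measure_isClopen (h : RlApprox 𝒜) (φ : 𝒜 →ₗ[ℂ] ℂ) (hφ : RlPos φ) {s : Set (RlX 𝒜)}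
    (hs : IsClopen s) : (((rlMeasure φ hφ) s).toReal : ℂ) = φ (rlProj s) := by
  classical
  rw [← real_integral_apply h φ hφ (rlProj s)]
  have : (fun x : RlX 𝒜 => x (rlProj s)) = Set.indicator s (fun _ => (1 : ℂ)) := by
    funext x
    rw [real_apply_rlProj hs, Set.indicator_apply]
  rw [this, integral_indicator_const _ (real_measurableSet_of_isClopen hs), measureReal_def]
  simp

theorem real_isSetRing_isClopen : IsSetRing {s : Set (RlX 𝒜) | IsClopen s} where
  empty_mem := isClopen_empty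
  union_mem := fun _ _ hs ht => IsClopen.union hs ht
  sdiff_mem := fun _ _ hs ht => IsClopen.diff hs ht

/-- LEAF Spec-3. Two finite measures which agree on clopen sets are equal. -/
theorem real_measure_ext {μ ν : Measure (RlX 𝒜)} [IsFiniteMeasure μ]
    (h : ∀ s : Set (RlX 𝒜), IsClopen s → μ s = ν s) : μ = ν :=
  ext_of_generate_finite {s : Set (RlX 𝒜) | IsClopen s} rfl
    real_isSetRing_isClopen.isSetSemiring.isPiSystem (fun s hs => h s hs) (h _ isClopen_univ)

/-- LEAF Spec-3. Measurable sets are approximated by clopen sets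
(`exists_measure_symmDiff_lt_of_generateFrom_isSetRing`). -/
theorem real_exists_isClopen_symmDiff_lt (μ : Measure (RlX 𝒜)) [IsFiniteMeasure μ] {s : Set (RlX 𝒜)}
    (hs : MeasurableSet s) {ε : ENNReal} (hε : 0 < ε) :
    ∃ t : Set (RlX 𝒜), IsClopen t ∧ μ (symmDiff t s) < ε := by
  obtain ⟨t, ht, h⟩ := exists_measure_symmDiff_lt_of_generateFrom_isSetRing (μ := μ)
    (real_isSetRing_isClopen (𝒜 := 𝒜))
    ⟨{Set.univ}, Set.countable_singleton _, by simpa using isClopen_univ, by simp⟩ rfl hs hε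
  exact ⟨t, ht, h⟩

/-- LEAF Spec-3. Finite valued measurable functions are approximated by locally constant functions. -/
theorem real_exists_isLocallyConstant_approx (μ : Measure (RlX 𝒜)) [IsFiniteMeasure μ] {r : ℕ} (hr : 0 < r)
    {c : RlX 𝒜 → Fin r} (hc : Measurable c) {ε : ENNReal} (hε : 0 < ε) :
    ∃ c' : RlX 𝒜 → Fin r, IsLocallyConstant c' ∧ μ {x | c x ≠ c' x} < ε := by
  classical
  have hr0 : (r : ENNReal) ≠ 0 := by exact_mod_cast hr.ne'
  have hδ : 0 < ε / r := ENNReal.div_pos hε.ne' (ENNReal.natCast_ne_top r)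
  choose V hV hμV using fun i : Fin r =>
    real_exists_isClopen_symmDiff_lt μ (hc (measurableSet_singleton i)) hδ
  -- the rule: a function of the membership pattern
  let F : (Fin r → Prop) → Fin r := fun p => if h : ∃ i, p i then Classical.choose h else ⟨0, hr⟩
  refine ⟨fun x => F fun i => x ∈ V i, ?_, ?_⟩
  · rw [IsLocallyConstant.iff_exists_open]
    intro x
    refine ⟨⋂ i, (if x ∈ V i then V i else (V i)ᶜ), ?_, ?_, ?_⟩
    · refine isOpen_iInter_of_finite fun i => ?_
      split_ifs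
      · exact (hV i).isOpen
      · exact (hV i).compl.isOpen
    · rw [Set.mem_iInter]
      intro i
      split_ifs with h
      · exact h
      · exact h
    · intro x' hx'
      rw [Set.mem_iInter] at hx'
      have : (fun i => x' ∈ V i) = fun i => x ∈ V i := by
        funext i
        have := hx' i
        split_ifs at this with h
        · simp [h, this]
        · have h' : x' ∉ V i := this
          simp [h, h']
      show F (fun i => x' ∈ V i) = F fun i => x ∈ V i
      rw [this]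
  · have hsub : {x | c x ≠ F fun i => x ∈ V i} ⊆ ⋃ i, symmDiff (V i) (c ⁻¹' {i}) := by
      intro x hx
      by_contra hcon
      rw [Set.mem_iUnion, not_exists] at hcon
      have hiff : ∀ i, x ∈ V i ↔ c x = i := by
        intro i
        have := hcon i
        rw [Set.mem_symmDiff] at this
        simp only [Set.mem_preimage, Set.mem_singleton_iff] at this
        tauto
      apply hx
      have hex : ∃ i, x ∈ V i := ⟨c x, (hiff _).2 rfl⟩
      show c x = F fun i => x ∈ V i
      simp only [F]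
      rw [dif_pos hex]
      exact (hiff _).1 (Classical.choose_spec hex)
    have : Nonempty (Fin r) := ⟨⟨0, hr⟩⟩
    calc μ {x | c x ≠ F fun i => x ∈ V i} ≤ μ (⋃ i, symmDiff (V i) (c ⁻¹' {i})) := measure_mono hsub
      _ ≤ ∑ i, μ (symmDiff (V i) (c ⁻¹' {i})) := measure_iUnion_fintype_le _ _
      _ < ∑ _i : Fin r, ε / r :=
          ENNReal.sum_lt_sum_of_nonempty Finset.univ_nonempty fun i _ => hμV i
      _ = ε := by
          rw [Finset.sum_const, Finset.card_univ, Fintype.card_fin, nsmul_eq_mul]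
          exact ENNReal.mul_div_cancel hr0 (ENNReal.natCast_ne_top r)

end

end Claimed.Agent.R302
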