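/-
R302 / Real / Sys   (owner: helper234, prefix `real_`, structures `Rl*`)

ABSTRACT INPUT OF THE PACKAGE REAL.  `𝒜` = the masa (a commutative C*-algebra), `B` = the ambient `*`-algebra (`M`),
`E : B → 𝒜` the conditional expectation, `φ` the faithful state on `𝒜`, `u j` involutive unitary normalisers.
Everything REAL needs from the operator side is a field of `RlSys`; the file `Real/Glue.lean` instantiates it.

Conventions.  Words `g : List (Fin d)`;  `U (j :: g) = u j * U g`;  `ι (β g a) = (U g)* ι a (U g)`;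
characters `x`;  `(act g x) a = x (β g a)`, so `act (j :: g) x = θ j (act g x)`.
-/
import Mathlib

set_option autoImplicit false

namespace Claimed.Agent.R302

open scoped BigOperators ComplexConjugate

noncomputable section

universe u v

/-- Abstract "Cartan-like" system generated by `d` involutive normalisers. -/
structure RlSys (𝒜 : Type u) (B : Type v) [CommCStarAlgebra 𝒜] [Ring B] [StarRing B] [Algebra ℂ B]
    [StarModule ℂ B] (d : ℕ) where
  ι : 𝒜 →⋆ₐ[ℂ] B
  E : B →ₗ[ℂ] 𝒜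
  E_ι_mul : ∀ (a : 𝒜) (b : B), E (ι a * b) = a * E b
  E_mul_ι : ∀ (b : B) (a : 𝒜), E (b * ι a) = E b * a
  E_one : E 1 = 1
  E_star : ∀ b : B, E (star b) = star (E b)
  E_pos : ∀ b : B, ∃ c : 𝒜, E (star b * b) = star c * c
  φ : 𝒜 →ₗ[ℂ] ℂ
  φ_one : φ 1 = 1
  φ_pos : ∀ a : 𝒜, ∃ s : ℝ, 0 ≤ s ∧ φ (star a * a) = s
  φ_faithful : ∀ a : 𝒜, φ (star a * a) = 0 → a = 0
  u : Fin d → B
  u_star : ∀ j, star (u j) = u j
  u_sq : ∀ j, u j * u j = 1
  α : Fin d → 𝒜 →⋆ₐ[ℂ] 𝒜
  u_conj : ∀ j a, u j * ι a * u j = ι (α j a)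
  E_conj : ∀ j b, E (u j * b * u j) = α j (E b)
  /-- Radon-Nikodym elements -/
  k : Fin d → 𝒜
  k_pos : ∀ j, ∃ c : 𝒜, k j = star c * c
  k_spec : ∀ j a, φ (α j a) = φ (k j * a)
  /-- fixed part and three-set lemma for every word -/
  fix : ∀ g : List (Fin d), ∃ (e c : 𝒜) (f : Fin 3 → 𝒜), IsStarProjection e ∧
    (∀ i, IsStarProjection (f i)) ∧ e + ∑ i, f i = 1 ∧ (g.map u).prod * ι e = ι c ∧
    ∀ i, ι (f i) * (g.map u).prod * ι (f i) = 0
  /-- finite spectrum approximation -/
  approx : ∀ a : 𝒜, IsSelfAdjoint a → ∀ ε : ℝ, 0 < ε → ∃ (n : ℕ) (e : Fin n → 𝒜) (c : Fin n → ℝ),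
    (∀ i, IsStarProjection (e i)) ∧ ‖a - ∑ i, (c i : ℂ) • e i‖ ≤ ε

namespace RlSys

variable {𝒜 : Type u} {B : Type v} [CommCStarAlgebra 𝒜] [Ring B] [StarRing B] [Algebra ℂ B]
  [StarModule ℂ B] {d : ℕ} (S : RlSys 𝒜 B d)

/-- the unitary of a word -/
def U (g : List (Fin d)) : B := (g.map S.u).prod

/-- the automorphism of a word: `ι (β g a) = (U g)* ι a (U g)` -/
def β (g : List (Fin d)) : 𝒜 →⋆ₐ[ℂ] 𝒜 :=
  g.foldr (fun j f => f.comp (S.α j)) (StarAlgHom.id ℂ 𝒜)

/-- Gram elements -/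
def γ (g h : List (Fin d)) : 𝒜 := S.E (star (S.U g) * S.U h)

/-- word kernels of `y` -/
def τ (y : B) (g h : List (Fin d)) : 𝒜 := S.E (star (S.U g) * y * S.U h)

/-- Radon-Nikodym element of a word: `φ a = φ (β g a * kk g)` -/
def kk : List (Fin d) → 𝒜
  | [] => 1
  | j :: g => S.β g (S.k j) * kk g

@[simp] theorem U_nil : S.U [] = 1 := rfl

@[simp] theorem U_cons (j : Fin d) (g : List (Fin d)) : S.U (j :: g) = S.u j * S.U g := by
  simp [U]

theorem U_append (g h : List (Fin d)) : S.U (g ++ h) = S.U g * S.U h := by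
  simp [U]

theorem star_U (g : List (Fin d)) : star (S.U g) = S.U g.reverse := by
  induction g with
  | nil => simp
  | cons j g ih => simp [U_append, ih, S.u_star]

theorem star_U_mul_U (g : List (Fin d)) : star (S.U g) * S.U g = 1 := by
  induction g with
  | nil => simp
  | cons j g ih =>
    rw [U_cons, star_mul, S.u_star, mul_assoc, ← mul_assoc (S.u j), S.u_sq, one_mul, ih]

theorem U_mul_star_U (g : List (Fin d)) : S.U g * star (S.U g) = 1 := by
  induction g with
  | nil => simp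
  | cons j g ih =>
    rw [U_cons, star_mul, S.u_star, mul_assoc, ← mul_assoc (S.U g), ih, one_mul, S.u_sq]

@[simp] theorem β_nil (a : 𝒜) : S.β [] a = a := rfl

@[simp] theorem β_cons (j : Fin d) (g : List (Fin d)) (a : 𝒜) :
    S.β (j :: g) a = S.β g (S.α j a) := rfl

theorem β_append (g h : List (Fin d)) (a : 𝒜) : S.β (g ++ h) a = S.β h (S.β g a) := by
  induction g generalizing a with
  | nil => rfl
  | cons j g ih => simp [ih]

theorem E_ι (a : 𝒜) : S.E (S.ι a) = a := by
  have := S.E_ι_mul a 1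
  rwa [mul_one, S.E_one, mul_one] at this

theorem ι_injective : Function.Injective S.ι := fun a b h => by
  rw [← S.E_ι a, h, S.E_ι]

theorem ι_β (g : List (Fin d)) (a : 𝒜) : star (S.U g) * S.ι a * S.U g = S.ι (S.β g a) := by
  induction g generalizing a with
  | nil => simp
  | cons j g ih =>
    rw [U_cons, star_mul, S.u_star, β_cons, ← ih, ← S.u_conj]
    simp only [mul_assoc]

/-- `ι a * U g = U g * ι (β g a)` -/
theorem ι_mul_U (g : List (Fin d)) (a : 𝒜) : S.ι a * S.U g = S.U g * S.ι (S.β g a) := by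
  rw [← S.ι_β, ← mul_assoc, ← mul_assoc, S.U_mul_star_U, one_mul]

theorem star_U_mul_ι (g : List (Fin d)) (a : 𝒜) :
    star (S.U g) * S.ι a = S.ι (S.β g a) * star (S.U g) := by
  rw [← S.ι_β, mul_assoc, mul_assoc, S.U_mul_star_U, mul_one]

theorem E_β (g : List (Fin d)) (b : B) : S.E (star (S.U g) * b * S.U g) = S.β g (S.E b) := by
  induction g generalizing b with
  | nil => simp
  | cons j g ih =>
    rw [U_cons, star_mul, S.u_star, β_cons, ← S.E_conj, ← ih]
    simp only [mul_assoc]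

theorem α_α (j : Fin d) (a : 𝒜) : S.α j (S.α j a) = a := by
  apply S.ι_injective
  rw [← S.u_conj, ← S.u_conj]
  calc S.u j * (S.u j * S.ι a * S.u j) * S.u j
      = (S.u j * S.u j) * S.ι a * (S.u j * S.u j) := by simp only [mul_assoc]
    _ = S.ι a := by rw [S.u_sq, one_mul, mul_one]

theorem β_reverse_β (g : List (Fin d)) (a : 𝒜) : S.β g.reverse (S.β g a) = a := by
  apply S.ι_injective
  rw [← S.ι_β, ← S.ι_β, ← S.star_U, star_star]
  calc S.U g * (star (S.U g) * S.ι a * S.U g) * star (S.U g)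
      = (S.U g * star (S.U g)) * S.ι a * (S.U g * star (S.U g)) := by simp only [mul_assoc]
    _ = S.ι a := by rw [S.U_mul_star_U, one_mul, mul_one]

theorem β_β_reverse (g : List (Fin d)) (a : 𝒜) : S.β g (S.β g.reverse a) = a := by
  have := S.β_reverse_β g.reverse a
  rwa [List.reverse_reverse] at this

@[simp] theorem kk_nil : S.kk [] = 1 := rfl

@[simp] theorem kk_cons (j : Fin d) (g : List (Fin d)) :
    S.kk (j :: g) = S.β g (S.k j) * S.kk g := rfl

theorem φ_α_mul_k (j : Fin d) (a : 𝒜) : S.φ (S.α j a * S.k j) = S.φ a := by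
  have := S.k_spec j (S.α j a)
  rw [S.α_α] at this
  rw [this, mul_comm]

theorem φ_β_mul_kk (g : List (Fin d)) (a : 𝒜) : S.φ (S.β g a * S.kk g) = S.φ a := by
  induction g generalizing a with
  | nil => simp
  | cons j g ih =>
    rw [β_cons, kk_cons, ← mul_assoc, ← map_mul, ih, S.φ_α_mul_k]

theorem star_γ (g h : List (Fin d)) : star (S.γ g h) = S.γ h g := by
  simp [γ, ← S.E_star]

theorem γ_self (g : List (Fin d)) : S.γ g g = 1 := by
  simp [γ, S.star_U_mul_U, S.E_one]

theorem star_τ {y : B} (hy : star y = y) (g h : List (Fin d)) : star (S.τ y g h) = S.τ y h g := by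
  simp [τ, ← S.E_star, hy, mul_assoc]

theorem τ_self (y : B) (g : List (Fin d)) : S.τ y g g = S.β g (S.E y) := S.E_β g y

/-- covariance of the word kernels -/
theorem β_τ (y : B) (g h k : List (Fin d)) : S.β k (S.τ y g h) = S.τ y (g ++ k) (h ++ k) := by
  rw [τ, τ, ← S.E_β, U_append, U_append, star_mul]
  simp only [mul_assoc]

theorem β_γ (g h k : List (Fin d)) : S.β k (S.γ g h) = S.γ (g ++ k) (h ++ k) := by
  rw [γ, γ, ← S.E_β, U_append, U_append, star_mul]
  simp only [mul_assoc]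

end RlSys

end

end Claimed.Agent.R302
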