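/-
R302 / Real / Act   (owner: helper234)

The action of words on the spectrum, quasi-invariance of the measure, fixed point sets, Gram elements at characters.
-/
import Claimed.Agent.R302.Real.Sys
import Claimed.Agent.R302.Real.Spec

set_option autoImplicit false

namespace Claimed.Agent.R302

open MeasureTheory WeakDual
open scoped BigOperators ComplexConjugate

noncomputable section

universe u v

namespace RlSys

variable {𝒜 : Type u} {B : Type v} [CommCStarAlgebra 𝒜] [Ring B] [StarRing B] [Algebra ℂ B]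
  [StarModule ℂ B] {d : ℕ} (S : RlSys 𝒜 B d)

/-- action of a word on characters: `(act g x) a = x (β g a)` -/
def act (g : List (Fin d)) (x : RlX 𝒜) : RlX 𝒜 := CharacterSpace.compContinuousMap (S.β g) x

/-- the generating involutions -/
def θ (j : Fin d) (x : RlX 𝒜) : RlX 𝒜 := CharacterSpace.compContinuousMap (S.α j) x

@[simp] theorem act_apply (g : List (Fin d)) (x : RlX 𝒜) (a : 𝒜) : S.act g x a = x (S.β g a) := rfl

@[simp] theorem θ_apply (j : Fin d) (x : RlX 𝒜) (a : 𝒜) : S.θ j x a = x (S.α j a) := rfl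

@[simp] theorem act_nil (x : RlX 𝒜) : S.act [] x = x := CharacterSpace.ext fun _ => rfl

@[simp] theorem act_cons (j : Fin d) (g : List (Fin d)) (x : RlX 𝒜) :
    S.act (j :: g) x = S.θ j (S.act g x) := CharacterSpace.ext fun _ => rfl

theorem act_append (g h : List (Fin d)) (x : RlX 𝒜) : S.act (g ++ h) x = S.act g (S.act h x) :=
  CharacterSpace.ext fun a => by simp [S.β_append]

theorem act_reverse_act (g : List (Fin d)) (x : RlX 𝒜) : S.act g.reverse (S.act g x) = x :=
  CharacterSpace.ext fun a => by simp [S.β_β_reverse]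

theorem act_act_reverse (g : List (Fin d)) (x : RlX 𝒜) : S.act g (S.act g.reverse x) = x :=
  CharacterSpace.ext fun a => by simp [S.β_reverse_β]

theorem θ_θ (j : Fin d) (x : RlX 𝒜) : S.θ j (S.θ j x) = x :=
  CharacterSpace.ext fun a => by simp [S.α_α]

theorem continuous_act (g : List (Fin d)) : Continuous (S.act g) :=
  (CharacterSpace.compContinuousMap (S.β g)).continuous

theorem continuous_θ (j : Fin d) : Continuous (S.θ j) :=
  (CharacterSpace.compContinuousMap (S.α j)).continuous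

theorem measurable_act (g : List (Fin d)) : Measurable (S.act g) :=
  real_measurable_of_continuous (S.continuous_act g)

theorem measurable_θ (j : Fin d) : Measurable (S.θ j) :=
  real_measurable_of_continuous (S.continuous_θ j)

/-- coincidence of two words = fixed point of a third one -/
theorem act_eq_act_iff (g h : List (Fin d)) (x : RlX 𝒜) :
    S.act g x = S.act h x ↔ S.act (g.reverse ++ h) x = x := by
  rw [act_append]
  constructor
  · intro e; rw [← e, act_reverse_act]
  · intro e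
    have := congrArg (S.act g) e
    rw [act_act_reverse] at this
    exact this.symm

/-! ### the measure -/

/-- the measure of the state -/
def μ : Measure (RlX 𝒜) := rlMeasure S.φ S.φ_pos

instance : IsProbabilityMeasure S.μ := real_isProbabilityMeasure S.φ S.φ_pos S.φ_one

theorem integral_apply (a : 𝒜) : ∫ x, x a ∂S.μ = S.φ a := real_integral_apply S.approx S.φ S.φ_pos a

/-- the Radon-Nikodym derivative of a generator -/
def Δ (j : Fin d) (x : RlX 𝒜) : ℝ := (x (S.k j)).re

/-- the uniform bound of the edge ratios -/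
def KK : ℝ := 1 + ∑ j, ‖S.k j‖

theorem k_mul_α_k (j : Fin d) : S.k j * S.α j (S.k j) = 1 := by
  have key : ∀ a : 𝒜, S.φ (a * (S.k j * S.α j (S.k j) - 1)) = 0 := by
    intro a
    have h1 := S.φ_α_mul_k j (S.α j a * S.k j)
    rw [map_mul (S.α j), S.α_α, S.φ_α_mul_k] at h1
    rw [mul_sub, map_sub, mul_one, ← h1]
    have : a * (S.k j * S.α j (S.k j)) = a * S.α j (S.k j) * S.k j := by ring
    rw [this, sub_self]
  exact sub_eq_zero.1 (S.φ_faithful _ (key (star (S.k j * S.α j (S.k j) - 1))))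

theorem apply_k (j : Fin d) (x : RlX 𝒜) : x (S.k j) = (S.Δ j x : ℂ) := by
  obtain ⟨c, hc⟩ := S.k_pos j
  rw [Δ, hc, real_apply_star_mul_self, Complex.ofReal_re]

theorem Δ_nonneg (j : Fin d) (x : RlX 𝒜) : 0 ≤ S.Δ j x := by
  obtain ⟨c, hc⟩ := S.k_pos j
  rw [Δ, hc, real_apply_star_mul_self]
  simp only [Complex.ofReal_re]
  positivity

theorem Δ_mul_Δ_θ (j : Fin d) (x : RlX 𝒜) : S.Δ j x * S.Δ j (S.θ j x) = 1 := by
  have h := congrArg x (S.k_mul_α_k j)
  rw [map_mul, map_one, ← S.θ_apply, S.apply_k, S.apply_k] at h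
  exact_mod_cast h

theorem Δ_pos (j : Fin d) (x : RlX 𝒜) : 0 < S.Δ j x := by
  rcases (S.Δ_nonneg j x).lt_or_eq with h | h
  · exact h
  · have := S.Δ_mul_Δ_θ j x
    rw [← h, zero_mul] at this
    exact absurd this zero_ne_one

theorem KK_pos : 0 < S.KK := by
  have : 0 ≤ ∑ j, ‖S.k j‖ := Finset.sum_nonneg fun _ _ => norm_nonneg _
  rw [KK]; linarith

theorem one_le_KK : 1 ≤ S.KK := by
  have : 0 ≤ ∑ j, ‖S.k j‖ := Finset.sum_nonneg fun _ _ => norm_nonneg _
  rw [KK]; linarith

theorem Δ_le (j : Fin d) (x : RlX 𝒜) : S.Δ j x ≤ S.KK := by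
  have h1 : S.Δ j x ≤ ‖x (S.k j)‖ := Complex.re_le_norm _
  have h2 := real_norm_apply_le x (S.k j)
  have h3 : ‖S.k j‖ ≤ ∑ j, ‖S.k j‖ :=
    Finset.single_le_sum (f := fun j => ‖S.k j‖) (fun _ _ => norm_nonneg _) (Finset.mem_univ j)
  rw [KK]; linarith

theorem Δ_ge (j : Fin d) (x : RlX 𝒜) : S.KK⁻¹ ≤ S.Δ j x := by
  have h1 := S.Δ_mul_Δ_θ j x
  have h2 := S.Δ_le j (S.θ j x)
  have h3 := S.Δ_pos j x
  have h4 := S.KK_pos
  rw [inv_le_iff_one_le_mul₀ h4]
  calc (1 : ℝ) = S.Δ j x * S.Δ j (S.θ j x) := h1.symm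
    _ ≤ S.Δ j x * S.KK := by gcongr

theorem measurable_Δ (j : Fin d) : Measurable (S.Δ j) :=
  Complex.measurable_re.comp (real_measurable_apply S.approx (S.k j))

/-- the transported measure -/
def νθ (j : Fin d) : Measure (RlX 𝒜) :=
  (S.μ.withDensity fun x => ENNReal.ofReal (S.Δ j x)).map (S.θ j)

theorem integrable_Δ (j : Fin d) : Integrable (S.Δ j) S.μ :=
  (real_integrable_apply S.approx S.φ S.φ_pos (S.k j)).re

theorem νθ_apply (j : Fin d) {s : Set (RlX 𝒜)} (hs : MeasurableSet s) :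
    S.νθ j s = ENNReal.ofReal (∫ x, (S.θ j ⁻¹' s).indicator (S.Δ j) x ∂S.μ) := by
  have hs' : MeasurableSet (S.θ j ⁻¹' s) := S.measurable_θ j hs
  rw [νθ, Measure.map_apply (S.measurable_θ j) hs, withDensity_apply _ hs',
    integral_indicator hs', ofReal_integral_eq_lintegral_ofReal (S.integrable_Δ j).integrableOn
      (Filter.Eventually.of_forall fun x => S.Δ_nonneg j x)]

theorem integral_indicator_Δ_nonneg (j : Fin d) (s : Set (RlX 𝒜)) :
    0 ≤ ∫ x, (S.θ j ⁻¹' s).indicator (S.Δ j) x ∂S.μ :=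
  integral_nonneg fun x => Set.indicator_nonneg (fun y _ => S.Δ_nonneg j y) x

theorem Δ_spec_clopen (j : Fin d) {s : Set (RlX 𝒜)} (hs : IsClopen s) :
    (S.μ s).toReal = ∫ x, (S.θ j ⁻¹' s).indicator (S.Δ j) x ∂S.μ := by
  classical
  have h1 : ((S.μ s).toReal : ℂ) = S.φ (rlProj s) := real_measure_isClopen S.approx S.φ S.φ_pos hs
  have h2 : S.φ (rlProj s) = ∫ x, x (S.α j (rlProj s) * S.k j) ∂S.μ := by
    rw [S.integral_apply, S.φ_α_mul_k]
  have h3 : ∀ x : RlX 𝒜, x (S.α j (rlProj s) * S.k j) =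
      (((S.θ j ⁻¹' s).indicator (S.Δ j) x : ℝ) : ℂ) := by
    intro x
    rw [map_mul, ← S.θ_apply, real_apply_rlProj hs, S.apply_k]
    by_cases hx : S.θ j x ∈ s
    · rw [if_pos hx, one_mul, Set.indicator_of_mem (show x ∈ S.θ j ⁻¹' s from hx)]
    · rw [if_neg hx, zero_mul, Set.indicator_of_notMem (show x ∉ S.θ j ⁻¹' s from hx)]
      simp
  rw [h2] at h1
  simp_rw [h3] at h1
  have h4 : ∫ x, (((S.θ j ⁻¹' s).indicator (S.Δ j) x : ℝ) : ℂ) ∂S.μ =
      ((∫ x, (S.θ j ⁻¹' s).indicator (S.Δ j) x ∂S.μ : ℝ) : ℂ) := integral_ofReal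
  rw [h4] at h1
  exact_mod_cast h1

theorem νθ_eq (j : Fin d) : S.μ = S.νθ j := by
  refine real_measure_ext fun s hs => ?_
  rw [S.νθ_apply j (real_measurableSet_of_isClopen hs), ← S.Δ_spec_clopen j hs,
    ENNReal.ofReal_toReal (measure_ne_top _ _)]

theorem Δ_spec (j : Fin d) {s : Set (RlX 𝒜)} (hs : MeasurableSet s) :
    (S.μ s).toReal = ∫ x, (S.θ j ⁻¹' s).indicator (S.Δ j) x ∂S.μ := by
  conv_lhs => rw [S.νθ_eq j]
  rw [S.νθ_apply j hs, ENNReal.toReal_ofReal (S.integral_indicator_Δ_nonneg j s)]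

theorem measure_preimage_θ_le (j : Fin d) {s : Set (RlX 𝒜)} (hs : MeasurableSet s) :
    (S.μ (S.θ j ⁻¹' s)).toReal ≤ S.KK * (S.μ s).toReal := by
  have hs' : MeasurableSet (S.θ j ⁻¹' s) := S.measurable_θ j hs
  rw [S.Δ_spec j hs]
  have h1 : ∫ x, (S.θ j ⁻¹' s).indicator (fun _ => S.KK⁻¹) x ∂S.μ ≤
      ∫ x, (S.θ j ⁻¹' s).indicator (S.Δ j) x ∂S.μ := by
    apply integral_mono
    · exact (integrable_const _).indicator hs'
    · exact (S.integrable_Δ j).indicator hs'
    · intro x
      by_cases hx : x ∈ S.θ j ⁻¹' s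
      · simp only [Set.indicator_of_mem hx]; exact S.Δ_ge j x
      · simp only [Set.indicator_of_notMem hx]; exact le_refl _
  rw [integral_indicator_const _ hs'] at h1
  have h4 := S.KK_pos
  simp only [smul_eq_mul, Measure.real] at h1
  calc (S.μ (S.θ j ⁻¹' s)).toReal = S.KK * ((S.μ (S.θ j ⁻¹' s)).toReal * S.KK⁻¹) := by
        field_simp
    _ ≤ _ := by gcongr

theorem measure_preimage_act_le (g : List (Fin d)) {s : Set (RlX 𝒜)} (hs : MeasurableSet s) :
    (S.μ (S.act g ⁻¹' s)).toReal ≤ S.KK ^ g.length * (S.μ s).toReal := by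
  induction g generalizing s with
  | nil =>
    have : S.act [] ⁻¹' s = s := by ext x; simp
    simp [this]
  | cons j g ih =>
    have : S.act (j :: g) ⁻¹' s = S.act g ⁻¹' (S.θ j ⁻¹' s) := by ext x; simp
    rw [this, List.length_cons, pow_succ, mul_assoc]
    refine (ih (S.measurable_θ j hs)).trans ?_
    have := S.measure_preimage_θ_le j hs
    have h4 := S.KK_pos
    gcongr

/-! ### fixed points -/

/-- The data attached to a word by `S.fix`, with all consequences used below. -/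
structure FixData (g : List (Fin d)) where
  e : 𝒜
  c : 𝒜
  f : Fin 3 → 𝒜
  he : IsStarProjection e
  hf : ∀ i, IsStarProjection (f i)
  sum_eq : e + ∑ i, f i = 1
  U_e : S.U g * S.ι e = S.ι c
  f_U_f : ∀ i, S.ι (f i) * S.U g * S.ι (f i) = 0

/-- a choice of fixed point data -/
def fixData (g : List (Fin d)) : S.FixData g :=
  let h := S.fix g
  let h1 := h.choose_spec
  let h2 := h1.choose_spec
  let h3 := h2.choose_spec
  ⟨h.choose, h1.choose, h2.choose, h3.1, h3.2.1, h3.2.2.1, h3.2.2.2.1, h3.2.2.2.2⟩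

variable {S}

theorem FixData.star_c_mul_c {g : List (Fin d)} (F : S.FixData g) : star F.c * F.c = F.e := by
  apply S.ι_injective
  rw [map_mul, map_star, ← F.U_e, star_mul, ← map_star, F.he.isSelfAdjoint.star_eq]
  calc S.ι F.e * star (S.U g) * (S.U g * S.ι F.e)
      = S.ι F.e * (star (S.U g) * S.U g) * S.ι F.e := by simp only [mul_assoc]
    _ = S.ι (F.e * F.e) := by rw [S.star_U_mul_U, mul_one, map_mul]
    _ = S.ι F.e := by rw [F.he.isIdempotentElem.eq]

theorem FixData.E_U_f {g : List (Fin d)} (F : S.FixData g) (i : Fin 3) :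
    S.E (S.U g * S.ι (F.f i)) = 0 := by
  have h1 : S.E (S.U g * S.ι (F.f i)) = S.E (S.U g * S.ι (F.f i)) * F.f i := by
    rw [← S.E_mul_ι, mul_assoc, ← map_mul, (F.hf i).isIdempotentElem.eq]
  rw [h1, mul_comm, ← S.E_ι_mul, ← mul_assoc, F.f_U_f, map_zero]

theorem FixData.E_U {g : List (Fin d)} (F : S.FixData g) : S.E (S.U g) = F.c := by
  have h : S.U g = S.U g * S.ι F.e + ∑ i, S.U g * S.ι (F.f i) := by
    rw [← Finset.mul_sum, ← mul_add, ← map_sum, ← map_add, F.sum_eq, map_one, mul_one]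
  rw [h, map_add, map_sum, F.U_e, S.E_ι]
  simp [F.E_U_f]

theorem FixData.e_mul_β {g : List (Fin d)} (F : S.FixData g) (a : 𝒜) : F.e * S.β g a = a * F.e := by
  have h1 : F.e * S.β g a = F.e * S.β g a * F.e := by
    rw [mul_right_comm, F.he.isIdempotentElem.eq]
  rw [h1]
  apply S.ι_injective
  rw [map_mul, map_mul, ← S.ι_β]
  calc S.ι F.e * (star (S.U g) * S.ι a * S.U g) * S.ι F.e
      = (S.ι F.e * star (S.U g)) * S.ι a * (S.U g * S.ι F.e) := by simp only [mul_assoc]
    _ = star (S.U g * S.ι F.e) * S.ι a * (S.U g * S.ι F.e) := by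
        rw [star_mul, ← map_star, F.he.isSelfAdjoint.star_eq]
    _ = S.ι (star F.c * a * F.c) := by rw [F.U_e, map_mul, map_mul, map_star]
    _ = S.ι (a * F.e) := by rw [mul_right_comm, F.star_c_mul_c, mul_comm]

theorem FixData.β_e {g : List (Fin d)} (F : S.FixData g) : S.β g F.e = F.e := by
  have h1 : S.U g * S.ι F.e * star (S.U g) = S.ι F.e := by
    have : S.ι (F.c * star F.c) = S.U g * S.ι F.e * star (S.U g) := by
      rw [map_mul, map_star, ← F.U_e, star_mul, ← map_star, F.he.isSelfAdjoint.star_eq]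
      calc S.U g * S.ι F.e * (S.ι F.e * star (S.U g))
          = S.U g * (S.ι F.e * S.ι F.e) * star (S.U g) := by simp only [mul_assoc]
        _ = _ := by rw [← map_mul, F.he.isIdempotentElem.eq]
    rw [← this, mul_comm, F.star_c_mul_c]
  apply S.ι_injective
  rw [← S.ι_β]
  calc star (S.U g) * S.ι F.e * S.U g
      = star (S.U g) * (S.U g * S.ι F.e * star (S.U g)) * S.U g := by rw [h1]
    _ = (star (S.U g) * S.U g) * S.ι F.e * (star (S.U g) * S.U g) := by simp only [mul_assoc]
    _ = S.ι F.e := by rw [S.star_U_mul_U, one_mul, mul_one]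

theorem FixData.f_mul_β_f {g : List (Fin d)} (F : S.FixData g) (i : Fin 3) : S.β g (F.f i) * F.f i = 0 := by
  apply S.ι_injective
  rw [map_mul, ← S.ι_β, map_zero]
  calc star (S.U g) * S.ι (F.f i) * S.U g * S.ι (F.f i)
      = star (S.U g) * (S.ι (F.f i) * S.U g * S.ι (F.f i)) := by simp only [mul_assoc]
    _ = 0 := by rw [F.f_U_f, mul_zero]

theorem FixData.act_f_eq_zero {g : List (Fin d)} (F : S.FixData g) {x : RlX 𝒜} {i : Fin 3}
    (h : x (F.f i) = 1) : S.act g x (F.f i) = 0 := by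
  have := congrArg x (F.f_mul_β_f i)
  rw [map_mul, h, mul_one, map_zero] at this
  exact this

theorem FixData.exists_f_of_e {g : List (Fin d)} (F : S.FixData g) {x : RlX 𝒜} (h : x F.e ≠ 1) :
    ∃ i, x (F.f i) = 1 := by
  have h0 : x F.e = 0 := (real_proj_apply F.he x).resolve_right h
  have h1 := congrArg x F.sum_eq
  rw [map_add, map_sum, h0, zero_add, map_one] at h1
  by_contra hcon
  push Not at hcon
  have : ∀ i, x (F.f i) = 0 := fun i => (real_proj_apply (F.hf i) x).resolve_right (hcon i)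
  simp [this] at h1

theorem FixData.act_eq_self_iff {g : List (Fin d)} (F : S.FixData g) (x : RlX 𝒜) :
    S.act g x = x ↔ x F.e = 1 := by
  constructor
  · intro h
    by_contra hne
    obtain ⟨i, hi⟩ := F.exists_f_of_e hne
    have := F.act_f_eq_zero hi
    rw [h, hi] at this
    exact one_ne_zero this
  · intro h
    refine CharacterSpace.ext fun a => ?_
    have := congrArg x (F.e_mul_β a)
    rw [map_mul, map_mul, h, one_mul, mul_one] at this
    exact this

theorem FixData.exists_f_of_ne {g : List (Fin d)} (F : S.FixData g) {x : RlX 𝒜} (h : S.act g x ≠ x) :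
    ∃ i, x (F.f i) = 1 :=
  F.exists_f_of_e fun h1 => h ((F.act_eq_self_iff x).2 h1)

theorem FixData.e_mul_kk {g : List (Fin d)} (F : S.FixData g) : F.e * S.kk g = F.e := by
  have key : ∀ a : 𝒜, S.φ (a * (F.e * S.kk g - F.e)) = 0 := by
    intro a
    have h1 := S.φ_β_mul_kk g (a * F.e)
    rw [map_mul (S.β g), F.β_e, mul_comm (S.β g a), F.e_mul_β] at h1
    rw [mul_sub, map_sub, ← mul_assoc, h1, sub_self]
  have := S.φ_faithful _ (key (star (F.e * S.kk g - F.e)))
  exact sub_eq_zero.1 this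

variable (S)

theorem isClopen_fix (g : List (Fin d)) : IsClopen {x : RlX 𝒜 | S.act g x = x} := by
  have : {x : RlX 𝒜 | S.act g x = x} = rlSet (S.fixData g).e := by
    ext x
    exact (S.fixData g).act_eq_self_iff x
  rw [this]
  exact real_isClopen_rlSet (S.fixData g).he

theorem isClopen_coinc (g h : List (Fin d)) : IsClopen {x : RlX 𝒜 | S.act g x = S.act h x} := by
  have : {x : RlX 𝒜 | S.act g x = S.act h x} = {x : RlX 𝒜 | S.act (g.reverse ++ h) x = x} := by
    ext x
    exact S.act_eq_act_iff g h x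
  rw [this]
  exact S.isClopen_fix _

theorem β_mul_γ (g h : List (Fin d)) (a : 𝒜) : S.β g a * S.γ g h = S.γ g h * S.β h a := by
  rw [γ, ← S.E_ι_mul, ← S.E_mul_ι, ← mul_assoc, ← S.star_U_mul_ι, mul_assoc, mul_assoc, S.ι_mul_U]

theorem γ_apply_of_ne {g h : List (Fin d)} {x : RlX 𝒜} (hx : S.act g x ≠ S.act h x) :
    x (S.γ g h) = 0 := by
  by_contra hne
  apply hx
  refine CharacterSpace.ext fun a => ?_
  have := congrArg x (S.β_mul_γ g h a)
  rw [map_mul, map_mul, mul_comm] at this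
  exact mul_left_cancel₀ hne this

theorem γ_eq_E_U (g h : List (Fin d)) : S.γ g h = S.E (S.U (g.reverse ++ h)) := by
  rw [γ, S.star_U, S.U_append]

theorem γ_apply_norm_of_eq {g h : List (Fin d)} {x : RlX 𝒜} (hx : S.act g x = S.act h x) :
    ‖x (S.γ g h)‖ = 1 := by
  set F := S.fixData (g.reverse ++ h)
  have he : x F.e = 1 := (F.act_eq_self_iff x).1 ((S.act_eq_act_iff g h x).1 hx)
  rw [S.γ_eq_E_U, F.E_U]
  have h1 := real_apply_star_mul_self x F.c
  rw [F.star_c_mul_c, he] at h1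
  have h2 : ‖x F.c‖ ^ 2 = 1 := by exact_mod_cast h1.symm
  have h3 : (0 : ℝ) ≤ ‖x F.c‖ := norm_nonneg _
  nlinarith [h2, h3]

theorem E_change_left {g g' : List (Fin d)} {x : RlX 𝒜} (hx : S.act g x = S.act g' x) (b : B) :
    x (S.E (star (S.U g) * b)) = x (S.γ g g') * x (S.E (star (S.U g') * b)) := by
  set F := S.fixData (g'.reverse ++ g)
  have he : x F.e = 1 := (F.act_eq_self_iff x).1 ((S.act_eq_act_iff g' g x).1 hx.symm)
  have hU : S.U (g'.reverse ++ g) = star (S.U g') * S.U g := by rw [S.U_append, S.star_U]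
  have hg : star (S.U g) = star (S.U (g'.reverse ++ g)) * star (S.U g') := by
    rw [hU, star_mul, star_star, mul_assoc, S.U_mul_star_U, mul_one]
  have hγ : S.γ g g' = star F.c := by
    rw [← S.star_γ, S.γ_eq_E_U, F.E_U]
  have h1 : ∀ b' : B, x (S.E (star (S.U (g'.reverse ++ g)) * b')) = x (star F.c) * x (S.E b') := by
    intro b'
    calc x (S.E (star (S.U (g'.reverse ++ g)) * b'))
        = x (F.e * S.E (star (S.U (g'.reverse ++ g)) * b')) := by rw [map_mul x, he, one_mul]
      _ = x (S.E (star (S.U (g'.reverse ++ g) * S.ι F.e) * b')) := by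
          rw [← S.E_ι_mul, star_mul, ← map_star, F.he.isSelfAdjoint.star_eq, mul_assoc]
      _ = x (star F.c) * x (S.E b') := by rw [F.U_e, ← map_star, S.E_ι_mul, map_mul x]
  rw [hg, mul_assoc, h1, hγ]

theorem E_change_right {g g' : List (Fin d)} {x : RlX 𝒜} (hx : S.act g x = S.act g' x) (b : B) :
    x (S.E (b * S.U g)) = x (S.E (b * S.U g')) * x (S.γ g' g) := by
  have h := S.E_change_left hx (star b)
  have h2 := congrArg (starRingEnd ℂ) h
  rw [map_mul (starRingEnd ℂ), ← real_apply_star, ← real_apply_star, ← real_apply_star, ← S.E_star,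
    ← S.E_star, S.star_γ, star_mul, star_mul, star_star, star_star, star_star] at h2
  rw [h2, mul_comm]

theorem kk_append (g h : List (Fin d)) : S.kk (g ++ h) = S.β h (S.kk g) * S.kk h := by
  induction g with
  | nil => simp
  | cons j g ih =>
    rw [List.cons_append, kk_cons, ih, kk_cons, S.β_append, map_mul, mul_assoc]

theorem kk_apply_of_fix {g : List (Fin d)} {x : RlX 𝒜} (hx : S.act g x = x) : x (S.kk g) = 1 := by
  have he := ((S.fixData g).act_eq_self_iff x).1 hx
  have := congrArg x (S.fixData g).e_mul_kk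
  rwa [map_mul, he, one_mul] at this

theorem kk_apply_eq_of_act_eq {g h : List (Fin d)} {x : RlX 𝒜} (hx : S.act g x = S.act h x) :
    x (S.kk g) = x (S.kk h) := by
  have h1 : x (S.kk (h.reverse ++ g)) = 1 :=
    S.kk_apply_of_fix ((S.act_eq_act_iff h g x).1 hx.symm)
  have h2 : x (S.kk (h.reverse ++ h)) = 1 :=
    S.kk_apply_of_fix ((S.act_eq_act_iff h h x).1 rfl)
  rw [S.kk_append, map_mul, ← S.act_apply] at h1 h2
  rw [hx] at h1
  have hne : S.act h x (S.kk h.reverse) ≠ 0 := by
    intro h0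
    rw [h0, zero_mul] at h1
    exact zero_ne_one h1
  exact mul_left_cancel₀ hne (h1.trans h2.symm)

end RlSys

end

end Claimed.Agent.R302
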