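/-
R302 / Real / Iface   (owner: helper234, prefix `real_` / structures `Mg*`)

PROPOSED INTERFACE between MG+COL (Secs 5-6 of Q, abstract measured systems) and REAL (dictionary to operator algebras).

Design decisions (see my msg to row302, points (A)-(F)):
* the acting object is the free monoid `List (Fin d)` on `d` INVOLUTIONS `θ j` of `X`
  (operator side: involutive unitary normalisers `w j`); `act (j :: g) x = θ j (act g x)`.
* no topology, no standard Borel hypothesis on `X`.
* matrix data: ROOTED site kernels `T x u v` (root `x`, sites `u v : X`), gauge covariant under change of root.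
* randomness: NO Bernoulli extension, no measure on labellings of orbits.  A colouring RULE of radius `R` with `L` binary digits is
  a function `rule : X → (words of length ≤ R → Fin L → Bool) → Fin r`.  Given a finite measurable partition `cell : X → ι`
  which separates the sites of every `R`-ball, labels are `z : ι → Fin L → Bool` (uniform, a FINITE probability space),
  the label of the site `u` is `z (cell u)`; inside an `R`-ball these labels are exactly iid.
-/
import Mathlib

set_option autoImplicit false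

namespace Claimed.Agent.R302

open MeasureTheory
open scoped BigOperators ComplexConjugate

noncomputable section

universe u v

/-- A nonsingular measured system generated by `d` involutions, with rooted matrix data. -/
structure MgSys (d : ℕ) where
  X : Type u
  mX : MeasurableSpace X
  μ : @Measure X mX
  prob : @IsProbabilityMeasure X mX μ
  /-- the generating involutions -/
  θ : Fin d → X → X
  θ_invol : ∀ j x, θ j (θ j x) = x
  θ_meas : ∀ j, @Measurable X X mX mX (θ j)
  /-- Radon-Nikodym derivative: `∫ f (θ j x) * Δ j x dμ = ∫ f dμ`, i.e. `Δ j x = Δ(θ_j x, x)` in the notation of Q (6.1). -/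
  Δ : Fin d → X → ℝ
  Δ_meas : ∀ j, @Measurable X ℝ mX _ (Δ j)
  Δ_pos : ∀ j x, 0 < Δ j x
  Δ_spec : ∀ (j : Fin d) (s : Set X), @MeasurableSet X mX s →
    (μ s).toReal = @integral X ℝ _ _ mX μ ((θ j ⁻¹' s).indicator (Δ j))
  /-- rooted kernels: `T x u v` = entry between the sites `u`, `v` in the gauge attached to the root `x` -/
  T : X → X → X → ℂ

namespace MgSys

variable {d : ℕ} (S : MgSys.{u} d)

instance : MeasurableSpace S.X := S.mX

/-- action of a word: `act (j :: g) x = θ j (act g x)`. -/
def act (g : List (Fin d)) (x : S.X) : S.X := g.foldr (fun j u => S.θ j u) x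

@[simp] theorem act_nil (x : S.X) : S.act [] x = x := rfl

@[simp] theorem act_cons (j : Fin d) (g : List (Fin d)) (x : S.X) :
    S.act (j :: g) x = S.θ j (S.act g x) := rfl

theorem act_append (g h : List (Fin d)) (x : S.X) : S.act (g ++ h) x = S.act g (S.act h x) := by
  simp [act, List.foldr_append]

/-- adjacency: distinct sites joined by a generator -/
def Adj (u v : S.X) : Prop := u ≠ v ∧ ∃ j, u = S.θ j v

/-- the ball of radius `R` around `x` as a set -/
def ball (R : ℕ) (x : S.X) : Set S.X := {u | ∃ g : List (Fin d), g.length ≤ R ∧ u = S.act g x}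

/-- the cocycle along a word: `cocy g x = Δ(act g x, x)`. -/
def cocy (g : List (Fin d)) (x : S.X) : ℝ :=
  (g.foldr (fun j (p : S.X × ℝ) => (S.θ j p.1, S.Δ j p.1 * p.2)) (x, 1)).2

@[simp] theorem cocy_nil (x : S.X) : S.cocy [] x = 1 := rfl

theorem cocy_aux (g : List (Fin d)) (x : S.X) :
    (g.foldr (fun j (p : S.X × ℝ) => (S.θ j p.1, S.Δ j p.1 * p.2)) (x, 1)).1 = S.act g x := by
  induction g with
  | nil => rfl
  | cons j g ih => simp [List.foldr_cons, ih]

@[simp] theorem cocy_cons (j : Fin d) (g : List (Fin d)) (x : S.X) :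
    S.cocy (j :: g) x = S.Δ j (S.act g x) * S.cocy g x := by
  simp [cocy, List.foldr_cons, cocy_aux]

/-- Hypotheses on the data (everything holds EVERYWHERE: the operator side provides this). -/
structure Good (K : ℝ) : Prop where
  /-- edge ratios -/
  Δ_le : ∀ j x, S.Δ j x ≤ K
  Δ_ge : ∀ j x, K⁻¹ ≤ S.Δ j x
  /-- cocycle identity on coincidences -/
  cocy_eq : ∀ (g h : List (Fin d)) (x : S.X), S.act g x = S.act h x → S.cocy g x = S.cocy h x
  /-- SEP: three set lemma for every word -/
  sep : ∀ g : List (Fin d), ∃ E : Fin 3 → Set S.X, (∀ i, MeasurableSet (E i)) ∧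
    (∀ x, S.act g x ≠ x → ∃ i, x ∈ E i) ∧ ∀ i x, x ∈ E i → S.act g x ∉ E i
  herm : ∀ x u v, S.T x u v = conj (S.T x v u)
  zdiag : ∀ x u, S.T x u u = 0
  supp : ∀ x u v, S.T x u v ≠ 0 → S.Adj u v ∧ ∃ g, v = S.act g x
  contr : ∀ (x : S.X) (F : Finset S.X) (ξ : S.X → ℂ),
    ‖∑ u ∈ F, ∑ v ∈ F, conj (ξ u) * S.T x u v * ξ v‖ ≤ ∑ u ∈ F, ‖ξ u‖ ^ 2
  /-- change of root = diagonal unitary gauge -/
  gauge : ∀ (x : S.X) (k : List (Fin d)), ∃ ζ : S.X → ℂ, (∀ u, ‖ζ u‖ = 1) ∧
    ∀ u v, S.T (S.act k x) u v = ζ u * S.T x u v * conj (ζ v)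
  meas : ∀ g h : List (Fin d), Measurable fun x => S.T x (S.act g x) (S.act h x)

/-- words of length at most `R` -/
abbrev Wd (d R : ℕ) := {g : List (Fin d) // g.length ≤ R}

/-- `cell` separates the sites of every `R`-ball. -/
def Separates {ι : Type v} (cell : S.X → ι) (R : ℕ) : Prop :=
  ∀ (x : S.X) (g h : List (Fin d)), g.length ≤ R → h.length ≤ R → S.act g x ≠ S.act h x →
    cell (S.act g x) ≠ cell (S.act h x)

/-- the colouring produced by a rule and a labelling of the cells -/
def colOf {ι : Type v} {r R L : ℕ} (rule : S.X → (Wd d R → Fin L → Bool) → Fin r) (cell : S.X → ι)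
    (z : ι → Fin L → Bool) (x : S.X) : Fin r :=
  rule x fun g t => z (cell (S.act g.1 x)) t

/-- the pinched matrix on the `m`-ball at `x` has norm at most `b` (quadratic form version, gauge of the root `x`). -/
def BallOK {r : ℕ} (c : S.X → Fin r) (m : ℕ) (b : ℝ) (x : S.X) : Prop :=
  ∀ (F : Finset S.X) (ξ : S.X → ℂ), (↑F : Set S.X) ⊆ S.ball m x →
    ‖∑ u ∈ F, ∑ v ∈ F, (if c u = c v then conj (ξ u) * S.T x u v * ξ v else 0)‖ ≤ b * ∑ u ∈ F, ‖ξ u‖ ^ 2

end MgSys

/-- **Theorem 6.1 of Q in rule form** (what REAL consumes).  The rule depends on the system, but not on the partition. -/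
def ColTheorem : Prop :=
  ∀ (d : ℕ) (S : MgSys.{u} d) (K : ℝ), S.Good K →
  ∀ (r : ℕ) (t : ℝ), (∃ a : ℕ, r = 2 ^ a) → 3 / Real.sqrt r < t →
  ∀ (m : ℕ) (α η : ℝ), 0 < α → 0 < η →
  ∃ (R L : ℕ) (rule : S.X → (MgSys.Wd d R → Fin L → Bool) → Fin r),
    (∀ lab, Measurable fun x => rule x lab) ∧
    ∀ (ι : Type v) [Fintype ι] [DecidableEq ι] (cell : S.X → ι), (∀ i, MeasurableSet (cell ⁻¹' {i})) →
      S.Separates cell R →
      -- EXACTLY uniform conditional marginals, at EVERY base point (captain's decision: `r` is a power of two)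
      (∀ (x : S.X) (i : Fin r),
        r * (Finset.univ.filter fun z : ι → Fin L → Bool => S.colOf rule cell z x = i).card
          = Fintype.card (ι → Fin L → Bool)) ∧
      -- bad balls are rare
      (∑ z : ι → Fin L → Bool, (S.μ {x | ¬ S.BallOK (S.colOf rule cell z) m (160 * t + α) x}).toReal)
          ≤ η * (Fintype.card (ι → Fin L → Bool) : ℝ)

end

end Claimed.Agent.R302
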