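/-
R302 / Real / Kern   (owner: helper234)

Site calculus at a character `x`:  the semi inner product `ip x b c = x (E (b* c))` on `B`, minimal representative
words `rep x u` of the sites `u` of the orbit of `x`, the site vectors `Ψ x ξ = ∑ ξ u • U (rep x u)`, the rooted site kernel `T y x u v`.
In the GNS picture of `ip x`: the classes of `U (rep x u)` form an orthonormal basis, `ι a * U g` is a scalar multiple of the
basis vector of the site `act g x`.
-/
import Claimed.Agent.R302.Real.Act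

set_option autoImplicit false

namespace Claimed.Agent.R302

open MeasureTheory WeakDual
open scoped BigOperators ComplexConjugate

noncomputable section

universe u v

namespace RlSys

variable {𝒜 : Type u} {B : Type v} [CommCStarAlgebra 𝒜] [Ring B] [StarRing B] [Algebra ℂ B]
  [StarModule ℂ B] {d : ℕ} (S : RlSys 𝒜 B d)

/-- the semi inner product at the character `x` (conjugate linear in the FIRST variable) -/
def ip (x : RlX 𝒜) (b c : B) : ℂ := x (S.E (star b * c))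

/-- Hypotheses on the kernel element `y` (a selfadjoint contraction of degree one with zero diagonal). -/
structure IsKer (y : B) : Prop where
  sa : star y = y
  E_zero : S.E y = 0
  coeff : ∃ a : Fin d → 𝒜, y = ∑ j, S.ι (a j) * S.u j
  le_one : ∀ b : B, ∃ c : 𝒜, S.E (star b * (1 - y) * b) = star c * c
  neg_one_le : ∀ b : B, ∃ c : 𝒜, S.E (star b * (1 + y) * b) = star c * c

/-! ### the semi inner product -/

theorem ip_add_right (x : RlX 𝒜) (b c c' : B) : S.ip x b (c + c') = S.ip x b c + S.ip x b c' := by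
  simp [ip, mul_add]

theorem ip_add_left (x : RlX 𝒜) (b b' c : B) : S.ip x (b + b') c = S.ip x b c + S.ip x b' c := by
  simp [ip, add_mul]

theorem ip_smul_right (x : RlX 𝒜) (s : ℂ) (b c : B) : S.ip x b (s • c) = s * S.ip x b c := by
  simp [ip]

theorem ip_smul_left (x : RlX 𝒜) (s : ℂ) (b c : B) : S.ip x (s • b) c = conj s * S.ip x b c := by
  simp [ip]

theorem ip_conj (x : RlX 𝒜) (b c : B) : conj (S.ip x b c) = S.ip x c b := by
  rw [ip, ip, ← real_apply_star, ← S.E_star, star_mul, star_star]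

theorem ip_self (x : RlX 𝒜) (b : B) : ∃ s : ℝ, 0 ≤ s ∧ S.ip x b b = s := by
  obtain ⟨c, hc⟩ := S.E_pos b
  exact ⟨‖x c‖ ^ 2, by positivity, by rw [ip, hc, real_apply_star_mul_self]⟩

/-- the seminorm squared -/
def nsq (x : RlX 𝒜) (b : B) : ℝ := (S.ip x b b).re

theorem ip_self_eq (x : RlX 𝒜) (b : B) : S.ip x b b = (S.nsq x b : ℂ) := by
  obtain ⟨s, -, hs⟩ := S.ip_self x b
  simp [nsq, hs]

theorem nsq_nonneg (x : RlX 𝒜) (b : B) : 0 ≤ S.nsq x b := by
  obtain ⟨s, h0, hs⟩ := S.ip_self x b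
  simp [nsq, hs, h0]

theorem ip_sum_right {κ : Type*} (x : RlX 𝒜) (s : Finset κ) (b : B) (c : κ → B) :
    S.ip x b (∑ i ∈ s, c i) = ∑ i ∈ s, S.ip x b (c i) := by
  simp [ip, Finset.mul_sum]

theorem ip_sum_left {κ : Type*} (x : RlX 𝒜) (s : Finset κ) (b : κ → B) (c : B) :
    S.ip x (∑ i ∈ s, b i) c = ∑ i ∈ s, S.ip x (b i) c := by
  simp [ip, Finset.sum_mul]

/-- moving a factor to the other side -/
theorem ip_mul_left (x : RlX 𝒜) (z b c : B) : S.ip x (z * b) c = S.ip x b (star z * c) := by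
  simp [ip, mul_assoc]

/-- the semi inner product as a `PreInnerProductSpace.Core` -/
@[instance_reducible] def ipCore (x : RlX 𝒜) : PreInnerProductSpace.Core ℂ B where
  inner b c := S.ip x b c
  conj_inner_symm b c := S.ip_conj x c b
  re_inner_nonneg b := S.nsq_nonneg x b
  add_left b b' c := S.ip_add_left x b b' c
  smul_left b c s := S.ip_smul_left x s b c

theorem norm_ip_sq_le (x : RlX 𝒜) (b c : B) : ‖S.ip x b c‖ ^ 2 ≤ S.nsq x b * S.nsq x c := by
  have h := @InnerProductSpace.Core.inner_mul_inner_self_le ℂ B _ _ _ (S.ipCore x) b c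
  have h2 : ‖S.ip x c b‖ = ‖S.ip x b c‖ := by rw [← S.ip_conj x b c, RCLike.norm_conj]
  change ‖S.ip x b c‖ * ‖S.ip x c b‖ ≤ S.nsq x b * S.nsq x c at h
  rw [h2] at h
  rw [sq]; exact h

theorem ip_sub_right (x : RlX 𝒜) (b c c' : B) : S.ip x b (c - c') = S.ip x b c - S.ip x b c' := by
  simp [ip, mul_sub]

theorem ip_sub_left (x : RlX 𝒜) (b b' c : B) : S.ip x (b - b') c = S.ip x b c - S.ip x b' c := by
  simp [ip, sub_mul]

theorem nsq_smul (x : RlX 𝒜) (s : ℂ) (b : B) : S.nsq x (s • b) = ‖s‖ ^ 2 * S.nsq x b := by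
  have h : S.ip x (s • b) (s • b) = ((‖s‖ ^ 2 * S.nsq x b : ℝ) : ℂ) := by
    rw [S.ip_smul_left, S.ip_smul_right, S.ip_self_eq, ← mul_assoc, Complex.conj_mul']
    push_cast; ring
  rw [nsq, h, Complex.ofReal_re]

theorem norm_ip_mul_le_of_diag (x : RlX 𝒜) {z : B} (hz : star z = z) (V : Submodule ℂ B) {θ : ℝ}
    (hθ : 0 ≤ θ) (h : ∀ v ∈ V, ‖S.ip x v (z * v)‖ ≤ θ * S.nsq x v) {v w : B} (hv : v ∈ V) (hw : w ∈ V) :
    ‖S.ip x v (z * w)‖ ^ 2 ≤ θ ^ 2 * (S.nsq x v * S.nsq x w) := by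
  set q := S.ip x v (z * w) with hq
  have hNv := S.nsq_nonneg x v
  have hNw := S.nsq_nonneg x w
  by_cases hq0 : q = 0
  · rw [hq0, norm_zero]
    have : 0 ≤ θ ^ 2 * (S.nsq x v * S.nsq x w) := by positivity
    simpa using this
  have hqn : (0 : ℝ) < ‖q‖ := norm_pos_iff.2 hq0
  have hqn' : ((‖q‖ : ℝ) : ℂ) ≠ 0 := by exact_mod_cast hqn.ne'
  set ω : ℂ := q / ‖q‖ with hω
  have hω1 : conj ω * q = ‖q‖ := by
    rw [hω, map_div₀, Complex.conj_ofReal, div_mul_eq_mul_div, Complex.conj_mul']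
    field_simp
  have hωn : ‖ω‖ = 1 := by
    rw [hω, norm_div, Complex.norm_real, norm_norm, div_self hqn.ne']
  set v' := ω • v with hv'
  have hv'V : v' ∈ V := V.smul_mem _ hv
  have hN : S.nsq x v' = S.nsq x v := by rw [hv', S.nsq_smul, hωn]; ring
  have hQ1 : S.ip x v' (z * w) = ‖q‖ := by rw [hv', S.ip_smul_left, ← hq, hω1]
  have hQ2 : S.ip x w (z * v') = ‖q‖ := by
    have : S.ip x w (z * v') = conj (S.ip x v' (z * w)) := by
      rw [S.ip_conj, S.ip_mul_left, hz]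
    rw [this, hQ1, Complex.conj_ofReal]
  have key : ∀ a : ℝ, 0 ≤ θ * S.nsq x v * (a * a) + (-(2 * ‖q‖)) * a + θ * S.nsq x w := by
    intro a
    have hp := h ((a : ℂ) • v' + w) (V.add_mem (V.smul_mem _ hv'V) hw)
    have hm := h ((a : ℂ) • v' - w) (V.sub_mem (V.smul_mem _ hv'V) hw)
    have e1 : S.ip x ((a : ℂ) • v' + w) (z * ((a : ℂ) • v' + w)) -
        S.ip x ((a : ℂ) • v' - w) (z * ((a : ℂ) • v' - w)) = ((4 * a * ‖q‖ : ℝ) : ℂ) := by
      simp only [mul_add, mul_sub, mul_smul_comm, S.ip_add_left, S.ip_add_right, S.ip_sub_left,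
        S.ip_sub_right, S.ip_smul_left, S.ip_smul_right, hQ1, hQ2, Complex.conj_ofReal]
      push_cast; ring
    have e2 : S.ip x ((a : ℂ) • v' + w) ((a : ℂ) • v' + w) +
        S.ip x ((a : ℂ) • v' - w) ((a : ℂ) • v' - w) =
        ((2 * a ^ 2 * S.nsq x v + 2 * S.nsq x w : ℝ) : ℂ) := by
      simp only [S.ip_add_left, S.ip_add_right, S.ip_sub_left,
        S.ip_sub_right, S.ip_smul_left, S.ip_smul_right, Complex.conj_ofReal]
      rw [S.ip_self_eq x v', S.ip_self_eq x w, hN]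
      push_cast; ring
    have e2' : S.nsq x ((a : ℂ) • v' + w) + S.nsq x ((a : ℂ) • v' - w) =
        2 * a ^ 2 * S.nsq x v + 2 * S.nsq x w := by
      have := congrArg Complex.re e2
      rwa [Complex.add_re, Complex.ofReal_re] at this
    have e3 : 4 * a * ‖q‖ ≤ θ * (2 * a ^ 2 * S.nsq x v + 2 * S.nsq x w) := by
      calc 4 * a * ‖q‖ ≤ ‖((4 * a * ‖q‖ : ℝ) : ℂ)‖ := by
            rw [Complex.norm_real]; exact le_abs_self _
        _ ≤ ‖S.ip x ((a : ℂ) • v' + w) (z * ((a : ℂ) • v' + w))‖ +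
            ‖S.ip x ((a : ℂ) • v' - w) (z * ((a : ℂ) • v' - w))‖ := by
            rw [← e1]; exact norm_sub_le _ _
        _ ≤ θ * S.nsq x ((a : ℂ) • v' + w) + θ * S.nsq x ((a : ℂ) • v' - w) := add_le_add hp hm
        _ = _ := by rw [← mul_add, e2']
    nlinarith [e3]
  have hd := discrim_le_zero key
  unfold discrim at hd
  nlinarith [hd]

/-- scalars of `𝒜` act on `U g` through the character of the site -/
theorem ip_ι_mul_U (x : RlX 𝒜) (b : B) (a : 𝒜) (g : List (Fin d)) :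
    S.ip x b (S.ι a * S.U g) = x (S.β g a) * S.ip x b (S.U g) := by
  rw [ip, ip, S.ι_mul_U, ← mul_assoc, S.E_mul_ι, map_mul, mul_comm]

theorem ip_U_U (x : RlX 𝒜) (g h : List (Fin d)) : S.ip x (S.U g) (S.U h) = x (S.γ g h) := rfl

theorem ip_U_mul_U (x : RlX 𝒜) (y : B) (g h : List (Fin d)) :
    S.ip x (S.U g) (y * S.U h) = x (S.τ y g h) := by
  rw [ip, τ, mul_assoc]

/-! ### representatives -/

/-- `u` is a site of the orbit of `x` -/
def InOrb (x u : RlX 𝒜) : Prop := ∃ g : List (Fin d), S.act g x = u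

open Classical in
/-- the representative word of the site `u` with the least code (junk `[]` outside of the orbit) -/
def rep (x u : RlX 𝒜) : List (Fin d) :=
  if h : ∃ n : ℕ, ∃ g : List (Fin d), Encodable.encode g = n ∧ S.act g x = u then
    (Nat.find_spec h).choose else []

theorem rep_aux {x u : RlX 𝒜} (h : S.InOrb x u) :
    ∃ n : ℕ, ∃ g : List (Fin d), Encodable.encode g = n ∧ S.act g x = u := by
  obtain ⟨g, hg⟩ := h
  exact ⟨_, g, rfl, hg⟩

open Classical in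
theorem rep_spec {x u : RlX 𝒜} (h : S.InOrb x u) :
    Encodable.encode (S.rep x u) = Nat.find (S.rep_aux h) ∧ S.act (S.rep x u) x = u := by
  rw [rep, dif_pos (S.rep_aux h)]
  exact (Nat.find_spec (S.rep_aux h)).choose_spec

theorem act_rep {x u : RlX 𝒜} (h : S.InOrb x u) : S.act (S.rep x u) x = u := (S.rep_spec h).2

theorem encode_rep_le_of {x u : RlX 𝒜} {g : List (Fin d)} (hg : S.act g x = u) :
    Encodable.encode (S.rep x u) ≤ Encodable.encode g := by
  classical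
  rw [(S.rep_spec ⟨g, hg⟩).1]
  exact Nat.find_min' _ ⟨g, rfl, hg⟩

theorem encode_rep_le {x : RlX 𝒜} (g : List (Fin d)) :
    Encodable.encode (S.rep x (S.act g x)) ≤ Encodable.encode g := S.encode_rep_le_of rfl

theorem rep_eq_iff (x : RlX 𝒜) (g g' : List (Fin d)) :
    S.rep x (S.act g x) = g' ↔ S.act g' x = S.act g x ∧
      ∀ g'' : List (Fin d), Encodable.encode g'' < Encodable.encode g' → S.act g'' x ≠ S.act g x := by
  constructor
  · rintro rfl
    refine ⟨S.act_rep ⟨g, rfl⟩, fun g'' hlt heq => ?_⟩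
    exact absurd (S.encode_rep_le_of heq) (not_le.2 hlt)
  · rintro ⟨h1, h2⟩
    apply Encodable.encode_injective
    apply le_antisymm (S.encode_rep_le_of h1)
    by_contra hlt
    exact h2 _ (not_le.1 hlt) (S.act_rep ⟨g, rfl⟩)

theorem isLocallyConstant_rep (g : List (Fin d)) :
    IsLocallyConstant fun x : RlX 𝒜 => S.rep x (S.act g x) := by
  rw [IsLocallyConstant.iff_isOpen_fiber]
  intro g'
  have : (fun x : RlX 𝒜 => S.rep x (S.act g x)) ⁻¹' {g'} =
      {x | S.act g' x = S.act g x} ∩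
        ⋂ g'' ∈ {g'' : List (Fin d) | Encodable.encode g'' < Encodable.encode g'},
          {x | S.act g'' x = S.act g x}ᶜ := by
    ext x
    simp only [Set.mem_preimage, Set.mem_singleton_iff, S.rep_eq_iff, Set.mem_inter_iff,
      Set.mem_iInter, Set.mem_compl_iff]
    rfl
  rw [this]
  refine (S.isClopen_coinc g' g).isOpen.inter ?_
  refine Set.Finite.isOpen_biInter ?_ fun g'' _ => (S.isClopen_coinc g'' g).compl.isOpen
  exact Set.Finite.preimage Encodable.encode_injective.injOn (Set.finite_Iio _)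

theorem inOrb_act (g : List (Fin d)) (x : RlX 𝒜) : S.InOrb x (S.act g x) := ⟨g, rfl⟩

theorem inOrb_act_iff (k : List (Fin d)) (x u : RlX 𝒜) : S.InOrb (S.act k x) u ↔ S.InOrb x u := by
  constructor
  · rintro ⟨g, rfl⟩
    exact ⟨g ++ k, S.act_append g k x⟩
  · rintro ⟨g, rfl⟩
    exact ⟨g ++ k.reverse, by rw [S.act_append, S.act_reverse_act]⟩

/-! ### site vectors and the site kernel -/

/-- the site vectors -/
def Ψ (x : RlX 𝒜) : (RlX 𝒜 →₀ ℂ) →ₗ[ℂ] B :=
  Finsupp.linearCombination ℂ fun u => S.U (S.rep x u)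

open Classical in
/-- the rooted site kernel of `y` -/
def T (y : B) (x u v : RlX 𝒜) : ℂ :=
  if S.InOrb x u ∧ S.InOrb x v then x (S.τ y (S.rep x u) (S.rep x v)) else 0

theorem Ψ_apply (x : RlX 𝒜) (ξ : RlX 𝒜 →₀ ℂ) :
    S.Ψ x ξ = ∑ u ∈ ξ.support, ξ u • S.U (S.rep x u) := by
  rw [Ψ, Finsupp.linearCombination_apply, Finsupp.sum]

open Classical in
theorem ip_U_rep {x u v : RlX 𝒜} (hu : S.InOrb x u) (hv : S.InOrb x v) :
    S.ip x (S.U (S.rep x u)) (S.U (S.rep x v)) = if u = v then 1 else 0 := by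
  rw [S.ip_U_U]
  split_ifs with h
  · subst h; rw [S.γ_self, map_one]
  · apply S.γ_apply_of_ne
    rw [S.act_rep hu, S.act_rep hv]; exact h

/-- general expansion of a matrix coefficient between site vectors -/
theorem ip_Ψ_mul_Ψ_gen (z : B) (x : RlX 𝒜) (ξ ξ' : RlX 𝒜 →₀ ℂ) :
    S.ip x (S.Ψ x ξ) (z * S.Ψ x ξ') =
      ∑ u ∈ ξ.support, ∑ v ∈ ξ'.support,
        conj (ξ u) * S.ip x (S.U (S.rep x u)) (z * S.U (S.rep x v)) * ξ' v := by
  rw [S.Ψ_apply, S.Ψ_apply, S.ip_sum_left]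
  refine Finset.sum_congr rfl fun u _ => ?_
  rw [Finset.mul_sum, S.ip_sum_right]
  refine Finset.sum_congr rfl fun v _ => ?_
  rw [mul_smul_comm, S.ip_smul_left, S.ip_smul_right]
  ring

theorem ip_Ψ_Ψ (x : RlX 𝒜) (ξ ξ' : RlX 𝒜 →₀ ℂ) (h : ∀ u ∈ ξ.support, S.InOrb x u)
    (h' : ∀ u ∈ ξ'.support, S.InOrb x u) :
    S.ip x (S.Ψ x ξ) (S.Ψ x ξ') = ∑ u ∈ ξ.support, conj (ξ u) * ξ' u := by
  classical
  have := S.ip_Ψ_mul_Ψ_gen 1 x ξ ξ'
  rw [one_mul] at this
  rw [this]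
  refine Finset.sum_congr rfl fun u hu => ?_
  have h1 : ∀ v ∈ ξ'.support, conj (ξ u) * S.ip x (S.U (S.rep x u)) (1 * S.U (S.rep x v)) * ξ' v =
      if u = v then conj (ξ u) * ξ' v else 0 := by
    intro v hv
    rw [one_mul, S.ip_U_rep (h u hu) (h' v hv)]
    split_ifs <;> simp
  rw [Finset.sum_congr rfl h1, Finset.sum_ite_eq]
  split_ifs with hu'
  · rfl
  · rw [Finsupp.notMem_support_iff.1 hu', mul_zero]

theorem nsq_Ψ (x : RlX 𝒜) (ξ : RlX 𝒜 →₀ ℂ) (h : ∀ u ∈ ξ.support, S.InOrb x u) :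
    S.nsq x (S.Ψ x ξ) = ∑ u ∈ ξ.support, ‖ξ u‖ ^ 2 := by
  rw [nsq, S.ip_Ψ_Ψ x ξ ξ h h, Complex.re_sum]
  refine Finset.sum_congr rfl fun u _ => ?_
  rw [Complex.conj_mul']
  norm_cast

theorem ip_Ψ_mul_Ψ (y : B) (x : RlX 𝒜) (ξ ξ' : RlX 𝒜 →₀ ℂ) (h : ∀ u ∈ ξ.support, S.InOrb x u)
    (h' : ∀ u ∈ ξ'.support, S.InOrb x u) :
    S.ip x (S.Ψ x ξ) (y * S.Ψ x ξ') =
      ∑ u ∈ ξ.support, ∑ v ∈ ξ'.support, conj (ξ u) * S.T y x u v * ξ' v := by
  rw [S.ip_Ψ_mul_Ψ_gen]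
  refine Finset.sum_congr rfl fun u hu => Finset.sum_congr rfl fun v hv => ?_
  rw [S.ip_U_mul_U, T, if_pos ⟨h u hu, h' v hv⟩]

theorem ip_ι_mul_U_eq_Ψ (x : RlX 𝒜) (b : B) (a : 𝒜) (g : List (Fin d)) :
    S.ip x b (S.ι a * S.U g) =
      S.ip x b (S.Ψ x (Finsupp.single (S.act g x)
        (x (S.β g a) * x (S.γ (S.rep x (S.act g x)) g)))) := by
  have h1 : S.act g x = S.act (S.rep x (S.act g x)) x := (S.act_rep (S.inOrb_act g x)).symm
  rw [S.ip_ι_mul_U, Ψ, Finsupp.linearCombination_single, S.ip_smul_right, ip, ip,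
    S.E_change_right h1]
  ring

/-- the `𝒜`-span of the words of length at most `l` -/
def Vl (l : ℕ) : Submodule ℂ B :=
  Submodule.span ℂ {b | ∃ (a : 𝒜) (g : List (Fin d)), g.length ≤ l ∧ b = S.ι a * S.U g}

theorem exists_Ψ_of_mem_Vl (x : RlX 𝒜) {l : ℕ} {v : B} (hv : v ∈ S.Vl l) :
    ∃ ξ : RlX 𝒜 →₀ ℂ, (∀ u ∈ ξ.support, ∃ g : List (Fin d), g.length ≤ l ∧ u = S.act g x) ∧
      ∀ b : B, S.ip x b v = S.ip x b (S.Ψ x ξ) := by
  classical
  induction hv using Submodule.span_induction with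
  | mem v hv =>
    obtain ⟨a, g, hg, rfl⟩ := hv
    refine ⟨_, fun u hu => ?_, fun b => S.ip_ι_mul_U_eq_Ψ x b a g⟩
    have := Finsupp.support_single_subset hu
    rw [Finset.mem_singleton] at this
    exact ⟨g, hg, this⟩
  | zero => exact ⟨0, by simp, fun b => by simp⟩
  | add v w _ _ ihv ihw =>
    obtain ⟨ξ, h1, h2⟩ := ihv
    obtain ⟨ξ', h1', h2'⟩ := ihw
    refine ⟨ξ + ξ', fun u hu => ?_, fun b => ?_⟩
    · rcases Finset.mem_union.1 (Finsupp.support_add hu) with h | h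
      · exact h1 u h
      · exact h1' u h
    · rw [map_add, S.ip_add_right, S.ip_add_right, h2, h2']
  | smul s v _ ihv =>
    obtain ⟨ξ, h1, h2⟩ := ihv
    refine ⟨s • ξ, fun u hu => h1 u (Finsupp.support_smul hu), fun b => ?_⟩
    rw [map_smul, S.ip_smul_right, S.ip_smul_right, h2]

/-! ### properties of the site kernel -/

theorem T_herm {y : B} (hy : S.IsKer y) (x u v : RlX 𝒜) : S.T y x u v = conj (S.T y x v u) := by
  classical
  unfold T
  by_cases h : S.InOrb x u ∧ S.InOrb x v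
  · rw [if_pos h, if_pos h.symm, ← real_apply_star, S.star_τ hy.sa]
  · rw [if_neg h, if_neg (fun h' => h h'.symm), map_zero]

theorem T_diag {y : B} (hy : S.IsKer y) (x u : RlX 𝒜) : S.T y x u u = 0 := by
  classical
  unfold T
  split_ifs
  · rw [S.τ_self, hy.E_zero, map_zero, map_zero]
  · rfl

theorem τ_eq_sum {y : B} {a : Fin d → 𝒜} (hy : y = ∑ j, S.ι (a j) * S.u j) (g h : List (Fin d)) :
    S.τ y g h = ∑ j, S.β g (a j) * S.γ g (j :: h) := by
  rw [τ, hy, Finset.mul_sum, Finset.sum_mul, map_sum]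
  refine Finset.sum_congr rfl fun j _ => ?_
  rw [γ, ← S.E_ι_mul, S.U_cons, ← mul_assoc, ← mul_assoc, ← mul_assoc, S.star_U_mul_ι]

theorem T_supp {y : B} (hy : S.IsKer y) {x u v : RlX 𝒜} (h : S.T y x u v ≠ 0) :
    (u ≠ v ∧ ∃ j, u = S.θ j v) ∧ ∃ g, v = S.act g x := by
  classical
  have horb : S.InOrb x u ∧ S.InOrb x v := by
    by_contra hn
    exact h (by rw [T, if_neg hn])
  refine ⟨⟨?_, ?_⟩, ?_⟩
  · rintro rfl
    exact h (S.T_diag hy x u)
  · obtain ⟨a, ha⟩ := hy.coeff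
    rw [T, if_pos horb, S.τ_eq_sum ha, map_sum] at h
    obtain ⟨j, -, hj⟩ := Finset.exists_ne_zero_of_sum_ne_zero h
    refine ⟨j, ?_⟩
    rw [map_mul] at hj
    have h2 : x (S.γ (S.rep x u) (j :: S.rep x v)) ≠ 0 := right_ne_zero_of_mul hj
    by_contra hne
    apply h2
    apply S.γ_apply_of_ne
    rw [S.act_rep horb.1, S.act_cons, S.act_rep horb.2]
    exact hne
  · obtain ⟨g, hg⟩ := horb.2
    exact ⟨g, hg.symm⟩

theorem norm_ip_mul_le {y : B} (hy : S.IsKer y) (x : RlX 𝒜) (v : B) :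
    ‖S.ip x v (y * v)‖ ≤ S.nsq x v := by
  obtain ⟨c₁, h₁⟩ := hy.le_one v
  obtain ⟨c₂, h₂⟩ := hy.neg_one_le v
  have e₁ : (S.nsq x v : ℂ) - S.ip x v (y * v) = ((‖x c₁‖ ^ 2 : ℝ) : ℂ) := by
    rw [← real_apply_star_mul_self, ← h₁, ← S.ip_self_eq, ip, ip, ← map_sub, ← map_sub]
    congr 2
    rw [mul_sub, sub_mul, mul_one, mul_assoc]
  have e₂ : (S.nsq x v : ℂ) + S.ip x v (y * v) = ((‖x c₂‖ ^ 2 : ℝ) : ℂ) := by
    rw [← real_apply_star_mul_self, ← h₂, ← S.ip_self_eq, ip, ip, ← map_add, ← map_add]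
    congr 2
    rw [mul_add, add_mul, mul_one, mul_assoc]
  have hq : S.ip x v (y * v) = (((‖x c₂‖ ^ 2 - ‖x c₁‖ ^ 2) / 2 : ℝ) : ℂ) := by
    have : S.ip x v (y * v) = (((‖x c₂‖ ^ 2 : ℝ) : ℂ) - ((‖x c₁‖ ^ 2 : ℝ) : ℂ)) / 2 := by
      rw [← e₁, ← e₂]; ring
    rw [this]; push_cast; ring
  have hN : S.nsq x v = (‖x c₂‖ ^ 2 + ‖x c₁‖ ^ 2) / 2 := by
    have : (S.nsq x v : ℂ) = (((‖x c₂‖ ^ 2 : ℝ) : ℂ) + ((‖x c₁‖ ^ 2 : ℝ) : ℂ)) / 2 := by
      rw [← e₁, ← e₂]; ring
    exact_mod_cast this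
  rw [hq, Complex.norm_real, hN, Real.norm_eq_abs, abs_le]
  have := sq_nonneg ‖x c₁‖
  have := sq_nonneg ‖x c₂‖
  constructor <;> linarith

theorem T_eq_zero_left {y : B} {x u : RlX 𝒜} (hu : ¬ S.InOrb x u) (v : RlX 𝒜) : S.T y x u v = 0 := by
  classical
  rw [T, if_neg fun h => hu h.1]

theorem T_eq_zero_right {y : B} {x v : RlX 𝒜} (hv : ¬ S.InOrb x v) (u : RlX 𝒜) : S.T y x u v = 0 := by
  classical
  rw [T, if_neg fun h => hv h.2]

theorem T_contr {y : B} (hy : S.IsKer y) (x : RlX 𝒜) (F : Finset (RlX 𝒜)) (ξ : RlX 𝒜 → ℂ) :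
    ‖∑ u ∈ F, ∑ v ∈ F, conj (ξ u) * S.T y x u v * ξ v‖ ≤ ∑ u ∈ F, ‖ξ u‖ ^ 2 := by
  classical
  set F' := F.filter fun u => S.InOrb x u with hF'
  set ξ' : RlX 𝒜 →₀ ℂ := Finsupp.onFinset F' (fun u => if u ∈ F' then ξ u else 0) (by
    intro u hu
    by_contra hn
    exact hu (if_neg hn)) with hξ'
  have hsupp : ξ'.support ⊆ F' := Finsupp.support_onFinset_subset
  have hFF : F' ⊆ F := Finset.filter_subset _ _
  have horb : ∀ u ∈ ξ'.support, S.InOrb x u := fun u hu => (Finset.mem_filter.1 (hsupp hu)).2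
  have happ : ∀ u, ξ' u = if u ∈ F' then ξ u else 0 := fun u => rfl
  have h1 : S.ip x (S.Ψ x ξ') (y * S.Ψ x ξ') = ∑ u ∈ F, ∑ v ∈ F, conj (ξ u) * S.T y x u v * ξ v := by
    rw [S.ip_Ψ_mul_Ψ y x ξ' ξ' horb horb]
    rw [Finset.sum_subset (hsupp.trans hFF) (fun u _ hu => by
      rw [Finsupp.notMem_support_iff.1 hu]; simp)]
    refine Finset.sum_congr rfl fun u hu => ?_
    rw [Finset.sum_subset (hsupp.trans hFF) (fun v _ hv => by
      rw [Finsupp.notMem_support_iff.1 hv]; simp)]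
    refine Finset.sum_congr rfl fun v hv => ?_
    by_cases hu' : S.InOrb x u
    · by_cases hv' : S.InOrb x v
      · rw [happ, happ, if_pos (Finset.mem_filter.2 ⟨hu, hu'⟩), if_pos (Finset.mem_filter.2 ⟨hv, hv'⟩)]
      · rw [S.T_eq_zero_right hv']; simp
    · rw [S.T_eq_zero_left hu']; simp
  rw [← h1]
  refine (S.norm_ip_mul_le hy x _).trans ?_
  rw [S.nsq_Ψ x ξ' horb]
  calc ∑ u ∈ ξ'.support, ‖ξ' u‖ ^ 2 ≤ ∑ u ∈ F, ‖ξ' u‖ ^ 2 :=
        Finset.sum_le_sum_of_subset_of_nonneg (hsupp.trans hFF) fun _ _ _ => by positivity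
    _ ≤ ∑ u ∈ F, ‖ξ u‖ ^ 2 := by
        refine Finset.sum_le_sum fun u _ => ?_
        rw [happ]
        split_ifs
        · exact le_refl _
        · rw [norm_zero]
          have : (0:ℝ) ≤ ‖ξ u‖ ^ 2 := by positivity
          simpa using this

theorem T_gauge (y : B) (x : RlX 𝒜) (k : List (Fin d)) :
    ∃ ζ : RlX 𝒜 → ℂ, (∀ u, ‖ζ u‖ = 1) ∧
      ∀ u v, S.T y (S.act k x) u v = ζ u * S.T y x u v * conj (ζ v) := by
  classical
  have hact : ∀ u, S.InOrb x u → S.act (S.rep (S.act k x) u ++ k) x = S.act (S.rep x u) x := by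
    intro u hu
    rw [S.act_append, S.act_rep ((S.inOrb_act_iff k x u).2 hu), S.act_rep hu]
  refine ⟨fun u => if S.InOrb x u then x (S.γ (S.rep (S.act k x) u ++ k) (S.rep x u)) else 1,
    fun u => ?_, fun u v => ?_⟩
  · dsimp only
    split_ifs with hu
    · exact S.γ_apply_norm_of_eq (hact u hu)
    · simp
  · dsimp only
    by_cases hu : S.InOrb x u
    · by_cases hv : S.InOrb x v
      · rw [if_pos hu, if_pos hv, T, T,
          if_pos ⟨(S.inOrb_act_iff k x u).2 hu, (S.inOrb_act_iff k x v).2 hv⟩, if_pos ⟨hu, hv⟩,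
          S.act_apply, S.β_τ, ← real_apply_star, S.star_γ]
        rw [τ, mul_assoc, S.E_change_left (hact u hu), ← mul_assoc, S.E_change_right (hact v hv), τ]
        ring
      · rw [S.T_eq_zero_right hv, S.T_eq_zero_right (fun h => hv ((S.inOrb_act_iff k x v).1 h))]
        simp
    · rw [S.T_eq_zero_left hu, S.T_eq_zero_left (fun h => hu ((S.inOrb_act_iff k x u).1 h))]
      simp

theorem T_continuous (y : B) (g h : List (Fin d)) :
    Continuous fun x : RlX 𝒜 => S.T y x (S.act g x) (S.act h x) := by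
  classical
  have h1 : ∀ x : RlX 𝒜, S.T y x (S.act g x) (S.act h x) =
      x (S.τ y (S.rep x (S.act g x)) (S.rep x (S.act h x))) := fun x => by
    rw [T, if_pos ⟨S.inOrb_act g x, S.inOrb_act h x⟩]
  simp_rw [h1]
  rw [continuous_iff_continuousAt]
  intro x₀
  have hg := (S.isLocallyConstant_rep g).isOpen_fiber (S.rep x₀ (S.act g x₀))
  have hh := (S.isLocallyConstant_rep h).isOpen_fiber (S.rep x₀ (S.act h x₀))
  have hev : (fun x : RlX 𝒜 => x (S.τ y (S.rep x (S.act g x)) (S.rep x (S.act h x)))) =ᶠ[nhds x₀]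
      fun x : RlX 𝒜 => x (S.τ y (S.rep x₀ (S.act g x₀)) (S.rep x₀ (S.act h x₀))) := by
    filter_upwards [hg.mem_nhds rfl, hh.mem_nhds rfl] with x hx1 hx2
    have e1 : S.rep x (S.act g x) = S.rep x₀ (S.act g x₀) := hx1
    have e2 : S.rep x (S.act h x) = S.rep x₀ (S.act h x₀) := hx2
    rw [e1, e2]
  exact ((real_continuous_apply _).continuousAt).congr hev.symm

theorem T_measurable (y : B) (g h : List (Fin d)) :
    Measurable fun x : RlX 𝒜 => S.T y x (S.act g x) (S.act h x) := by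
  have hc := S.T_continuous y g h
  have : (fun x : RlX 𝒜 => S.T y x (S.act g x) (S.act h x)) =
      fun x : RlX 𝒜 => x (rlOfC ⟨_, hc⟩) := by
    funext x
    rw [real_apply_rlOfC]; rfl
  rw [this]
  exact real_measurable_apply S.approx _

end RlSys

end

end Claimed.Agent.R302
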