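/-
R302 / Real / Inst   (owner: helper234)

The measured system `MgSys` of an abstract system `RlSys` and a kernel element `y`; it is `Good`.
-/
import Claimed.Agent.R302.Real.Iface
import Claimed.Agent.R302.Real.Kern

set_option autoImplicit false

namespace Claimed.Agent.R302

open MeasureTheory WeakDual
open scoped BigOperators ComplexConjugate

noncomputable section

universe u v

namespace RlSys

variable {𝒜 : Type u} {B : Type v} [CommCStarAlgebra 𝒜] [Ring B] [StarRing B] [Algebra ℂ B]
  [StarModule ℂ B] {d : ℕ} (S : RlSys 𝒜 B d)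

/-- the measured system of `S` and `y` -/
abbrev toMg (y : B) : MgSys.{u} d where
  X := RlX 𝒜
  mX := rlMS
  μ := S.μ
  prob := inferInstance
  θ := S.θ
  θ_invol := S.θ_θ
  θ_meas := S.measurable_θ
  Δ := S.Δ
  Δ_meas := S.measurable_Δ
  Δ_pos := S.Δ_pos
  Δ_spec := fun j _ hs => S.Δ_spec j hs
  T := S.T y

theorem toMg_act (y : B) (g : List (Fin d)) (x : RlX 𝒜) : (S.toMg y).act g x = S.act g x := by
  induction g with
  | nil => rw [MgSys.act_nil, S.act_nil]
  | cons j g ih => rw [MgSys.act_cons, ih, S.act_cons]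

theorem toMg_cocy (y : B) (g : List (Fin d)) (x : RlX 𝒜) :
    (((S.toMg y).cocy g x : ℝ) : ℂ) = x (S.kk g) := by
  induction g with
  | nil => rw [MgSys.cocy_nil, S.kk_nil, map_one, Complex.ofReal_one]
  | cons j g ih =>
    rw [MgSys.cocy_cons, S.kk_cons, map_mul, ← ih, ← S.act_apply, S.apply_k, S.toMg_act]
    push_cast
    rfl

theorem toMg_good {y : B} (hy : S.IsKer y) : (S.toMg y).Good S.KK where
  Δ_le := S.Δ_le
  Δ_ge := S.Δ_ge
  cocy_eq := fun g h x hx => by
    rw [S.toMg_act, S.toMg_act] at hx
    have := S.kk_apply_eq_of_act_eq hx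
    rw [← S.toMg_cocy y, ← S.toMg_cocy y] at this
    exact_mod_cast this
  sep := fun g => by
    refine ⟨fun i => rlSet ((S.fixData g).f i),
      fun i => real_measurableSet_of_isClopen (real_isClopen_rlSet ((S.fixData g).hf i)),
      fun x hx => ?_, fun i x hx => ?_⟩
    · rw [S.toMg_act] at hx
      exact (S.fixData g).exists_f_of_ne hx
    · rw [S.toMg_act]
      intro h
      have h0 := (S.fixData g).act_f_eq_zero hx
      have h1 : S.act g x ((S.fixData g).f i) = 1 := h
      rw [h0] at h1
      exact zero_ne_one h1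
  herm := S.T_herm hy
  zdiag := S.T_diag hy
  supp := fun x u v h => by
    obtain ⟨h1, g, hg⟩ := S.T_supp hy h
    exact ⟨h1, g, by rw [S.toMg_act]; exact hg⟩
  contr := S.T_contr hy
  gauge := fun x k => by
    rw [S.toMg_act]
    exact S.T_gauge y x k
  meas := fun g h => by
    simp_rw [S.toMg_act]
    exact S.T_measurable y g h

end RlSys

end

end Claimed.Agent.R302
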