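/-
R302 / Real / Cyl   (owner: helper234)

Partitions of unity in `𝒜` and their cell maps, random symmetries, labels read off from a family of symmetries,
the cylinder functions attached to a locally constant colouring rule, separation of sites by fine partitions.
-/
import Claimed.Agent.R302.Real.Inst

set_option autoImplicit false

namespace Claimed.Agent.R302

open MeasureTheory WeakDual
open scoped BigOperators ComplexConjugate

noncomputable section

universe u v w

section pou

variable {𝒜 : Type u} [CommCStarAlgebra 𝒜]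

/-- partitions of unity by projections -/
def RlIsPOU {κ : Type w} [Fintype κ] (p : κ → 𝒜) : Prop :=
  (∀ i, IsStarProjection (p i)) ∧ (∀ i j, i ≠ j → p i * p j = 0) ∧ ∑ i, p i = 1

/-- families of symmetries (values of the digits) -/
def RlIsSymFam (w : ℕ → 𝒜) : Prop := ∀ k, IsSelfAdjoint (w k) ∧ w k * w k = 1

/-- `e` refines the two-cell partitions `{f, 1 - f}`, `f ∈ 𝓕` -/
def RlRefines {κ : Type w} (e : κ → 𝒜) (𝓕 : Finset 𝒜) : Prop :=
  ∀ c, ∀ f ∈ 𝓕, e c * f = e c ∨ e c * f = 0

/-! ### LEAF Cyl-1 : cells and random symmetries -/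

theorem real_pou_existsUnique {κ : Type w} [Fintype κ] {p : κ → 𝒜} (hp : RlIsPOU p) (x : RlX 𝒜) :
    ∃! i, x (p i) = 1 := by
  obtain ⟨h1, h2, h3⟩ := hp
  have hex : ∃ i, x (p i) = 1 := by
    by_contra hcon
    push Not at hcon
    have h0 : ∀ i, x (p i) = 0 := fun i => (real_proj_apply (h1 i) x).resolve_right (hcon i)
    have := congrArg x h3
    rw [map_sum, map_one] at this
    simp [h0] at this
  obtain ⟨i, hi⟩ := hex
  refine ⟨i, hi, fun j hj => ?_⟩
  by_contra hne
  have := congrArg x (h2 j i hne)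
  rw [map_mul, hi, hj, map_zero] at this
  simp at this

/-- the cell of a character -/
def rlCell {κ : Type w} [Fintype κ] (p : κ → 𝒜) (hp : RlIsPOU p) (x : RlX 𝒜) : κ :=
  (real_pou_existsUnique hp x).choose

theorem real_apply_pou {κ : Type w} [Fintype κ] [DecidableEq κ] {p : κ → 𝒜} (hp : RlIsPOU p)
    (x : RlX 𝒜) (i : κ) : x (p i) = if rlCell p hp x = i then 1 else 0 := by
  have hs := (real_pou_existsUnique hp x).choose_spec
  split_ifs with h
  · rw [← h]
    exact hs.1
  · refine (real_proj_apply (hp.1 i) x).resolve_right fun h1 => h ?_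
    exact (hs.2 i h1).symm

theorem real_isLocallyConstant_rlCell {κ : Type w} [Fintype κ] {p : κ → 𝒜} (hp : RlIsPOU p) :
    IsLocallyConstant (rlCell p hp) := by
  classical
  rw [IsLocallyConstant.iff_exists_open]
  intro x
  refine ⟨rlSet (p (rlCell p hp x)), (real_isClopen_rlSet (hp.1 _)).isOpen, ?_, ?_⟩
  · show x (p (rlCell p hp x)) = 1
    rw [real_apply_pou hp, if_pos rfl]
  · intro x' hx'
    have h1 : x' (p (rlCell p hp x)) = 1 := hx'
    rw [real_apply_pou hp] at h1
    by_contra hne
    rw [if_neg hne] at h1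
    exact zero_ne_one h1

/-- a family of elements whose Gelfand transforms are the indicators of the fibres of a map is a partition of unity -/
theorem real_isPOU_of_apply {κ : Type w} [Fintype κ] [DecidableEq κ] {p : κ → 𝒜} (c : RlX 𝒜 → κ)
    (h : ∀ x i, x (p i) = if c x = i then 1 else 0) : RlIsPOU p := by
  refine ⟨fun i => real_isStarProjection_of_apply fun x => ?_, fun i j hij => real_ext fun x => ?_,
    real_ext fun x => ?_⟩
  · rw [h]
    split_ifs
    · exact Or.inr rfl
    · exact Or.inl rfl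
  · rw [map_mul, h, h, map_zero]
    by_cases h1 : c x = i
    · have h2 : c x ≠ j := fun h2 => hij (h1.symm.trans h2)
      rw [if_neg h2, mul_zero]
    · rw [if_neg h1, zero_mul]
  · rw [map_sum, map_one]
    simp only [h]
    rw [Finset.sum_ite_eq]
    simp

/-- the random symmetries: digit `k < t` takes the sign `om c k` on the cell `c` -/
def rlRand {κ : Type w} [Fintype κ] (e : κ → 𝒜) (t : ℕ) (om : κ → Fin t → Bool) (k : ℕ) : 𝒜 :=
  if h : k < t then ∑ c, (if om c ⟨k, h⟩ then (1 : ℂ) else -1) • e c else 1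

theorem real_apply_rlRand {κ : Type w} [Fintype κ] {e : κ → 𝒜} (he : RlIsPOU e) (t : ℕ)
    (om : κ → Fin t → Bool) {k : ℕ} (h : k < t) (x : RlX 𝒜) :
    x (rlRand e t om k) = if om (rlCell e he x) ⟨k, h⟩ then 1 else -1 := by
  classical
  rw [rlRand, dif_pos h, map_sum]
  have : ∀ c, x ((if om c ⟨k, h⟩ then (1 : ℂ) else -1) • e c)
      = if rlCell e he x = c then (if om c ⟨k, h⟩ then (1 : ℂ) else -1) else 0 := by
    intro c
    rw [map_smul, smul_eq_mul, real_apply_pou he]
    split_ifs <;> simp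
  simp only [this]
  rw [Finset.sum_ite_eq]
  simp

theorem real_isSymFam_rlRand {κ : Type w} [Fintype κ] {e : κ → 𝒜} (he : RlIsPOU e) (t : ℕ)
    (om : κ → Fin t → Bool) : RlIsSymFam (rlRand e t om) := by
  intro k
  by_cases h : k < t
  · refine ⟨real_ext fun x => ?_, real_ext fun x => ?_⟩
    · rw [real_apply_star, real_apply_rlRand he t om h]
      split_ifs <;> simp
    · rw [map_mul, real_apply_rlRand he t om h, map_one]
      split_ifs <;> simp
  · rw [rlRand, dif_neg h]
    exact ⟨IsSelfAdjoint.one _, one_mul _⟩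

theorem real_symFam_apply {w : ℕ → 𝒜} (hw : RlIsSymFam w) (k : ℕ) (x : RlX 𝒜) :
    x (w k) = 1 ∨ x (w k) = -1 := by
  have h := congrArg x (hw k).2
  rw [map_mul, map_one] at h
  exact mul_self_eq_one_iff.1 h

/-- restriction of the digits does not change averages -/
theorem real_avg_restrict {κ : Type w} [Fintype κ] [DecidableEq κ] {L t : ℕ} (hL : L ≤ t)
    (F : (κ → Fin L → Bool) → ℂ) :
    (∑ om : κ → Fin t → Bool, F fun c k => om c (Fin.castLE hL k)) /
        (Fintype.card (κ → Fin t → Bool) : ℂ) =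
      (∑ z : κ → Fin L → Bool, F z) / (Fintype.card (κ → Fin L → Bool) : ℂ) := by
  obtain ⟨s, rfl⟩ := Nat.exists_eq_add_of_le hL
  let e : (κ → Fin L → Bool) × (κ → Fin s → Bool) ≃ (κ → Fin (L + s) → Bool) :=
    { toFun := fun p c => Fin.append (p.1 c) (p.2 c)
      invFun := fun om => (fun c k => om c (Fin.castAdd s k), fun c k => om c (Fin.natAdd L k))
      left_inv := fun p => by
        refine Prod.ext ?_ ?_
        · funext c k
          exact Fin.append_left _ _ _
        · funext c k
          exact Fin.append_right _ _ _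
      right_inv := fun om => by
        funext c
        exact Fin.append_castAdd_natAdd }
  have h1 : ∑ om : κ → Fin (L + s) → Bool, F (fun c k => om c (Fin.castLE hL k))
      = (Fintype.card (κ → Fin s → Bool) : ℂ) * ∑ z : κ → Fin L → Bool, F z := by
    rw [← e.sum_comp, Fintype.sum_prod_type, Finset.mul_sum]
    refine Finset.sum_congr rfl fun z _ => ?_
    have : ∀ z' : κ → Fin s → Bool, F (fun c k => e (z, z') c (Fin.castLE hL k)) = F z := by
      intro z'
      congr 1
      funext c k
      exact Fin.append_left _ _ _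
    simp only [this]
    rw [Finset.sum_const, Finset.card_univ, nsmul_eq_mul]
  have h2 : (Fintype.card (κ → Fin (L + s) → Bool) : ℂ)
      = (Fintype.card (κ → Fin s → Bool) : ℂ) * (Fintype.card (κ → Fin L → Bool) : ℂ) := by
    rw [← Fintype.card_congr e, Fintype.card_prod]
    push_cast
    ring
  have h3 : (Fintype.card (κ → Fin s → Bool) : ℂ) ≠ 0 := by
    exact_mod_cast Fintype.card_ne_zero
  rw [h1, h2, mul_div_mul_left _ _ h3]

end pou

instance rlWdFinite (d R : ℕ) : Finite (MgSys.Wd d R) := (List.finite_length_le (Fin d) R).to_subtype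

instance rlWdFintype (d R : ℕ) : Fintype (MgSys.Wd d R) := Fintype.ofFinite _

variable {𝒜 : Type u} {B : Type v} [CommCStarAlgebra 𝒜] [Ring B] [StarRing B] [Algebra ℂ B]
  [StarModule ℂ B] {d : ℕ}

/-- cylinder functions: generated by constants and translated digits -/
inductive RlIsCyl (S : RlSys 𝒜 B d) : ((ℕ → 𝒜) → 𝒜) → Prop
  | const (a : 𝒜) : RlIsCyl S (fun _ => a)
  | site (g : List (Fin d)) (k : ℕ) : RlIsCyl S (fun w => S.β g (w k))
  | add {b b' : (ℕ → 𝒜) → 𝒜} : RlIsCyl S b → RlIsCyl S b' → RlIsCyl S (fun w => b w + b' w)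
  | mul {b b' : (ℕ → 𝒜) → 𝒜} : RlIsCyl S b → RlIsCyl S b' → RlIsCyl S (fun w => b w * b' w)

namespace RlSys

variable (S : RlSys 𝒜 B d)

open Classical in
/-- the labels read off from a family of symmetries at the sites of the `R`-ball of `x` -/
def lab (R L : ℕ) (w : ℕ → 𝒜) (x : RlX 𝒜) : MgSys.Wd d R → Fin L → Bool :=
  fun g t => decide (x (S.β g.1 (w t)) = 1)

open Classical in
/-- the cylinder function of the colour `i` of a rule `c'` -/
def cyl {r R L : ℕ} (c' : (MgSys.Wd d R → Fin L → Bool) → RlX 𝒜 → Fin r) (i : Fin r) (w : ℕ → 𝒜) : 𝒜 :=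
  ∑ lam : MgSys.Wd d R → Fin L → Bool, rlProj {x | c' lam x = i} *
    ∏ g : MgSys.Wd d R, ∏ t : Fin L,
      ((1 / 2 : ℂ) • (1 + (if lam g t then (1 : ℂ) else -1) • S.β g.1 (w t)))

/-! ### LEAF Cyl-2 : the cylinder functions of a rule -/

theorem isCyl_sum {κ : Type*} (s : Finset κ) (b : κ → (ℕ → 𝒜) → 𝒜) (h : ∀ i ∈ s, RlIsCyl S (b i)) :
    RlIsCyl S (fun w => ∑ i ∈ s, b i w) := by
  classical
  induction s using Finset.induction_on with
  | empty => simpa using RlIsCyl.const (S := S) 0
  | insert a s ha ih =>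
    simp only [Finset.sum_insert ha]
    exact RlIsCyl.add (h a (Finset.mem_insert_self a s))
      (ih fun i hi => h i (Finset.mem_insert_of_mem hi))

theorem isCyl_prod {κ : Type*} (s : Finset κ) (b : κ → (ℕ → 𝒜) → 𝒜) (h : ∀ i ∈ s, RlIsCyl S (b i)) :
    RlIsCyl S (fun w => ∏ i ∈ s, b i w) := by
  classical
  induction s using Finset.induction_on with
  | empty => simpa using RlIsCyl.const (S := S) 1
  | insert a s ha ih =>
    simp only [Finset.prod_insert ha]
    exact RlIsCyl.mul (h a (Finset.mem_insert_self a s))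
      (ih fun i hi => h i (Finset.mem_insert_of_mem hi))

theorem isCyl_smul (c : ℂ) {b : (ℕ → 𝒜) → 𝒜} (h : RlIsCyl S b) : RlIsCyl S (fun w => c • b w) := by
  have : (fun w => c • b w) = fun w => algebraMap ℂ 𝒜 c * b w := by
    funext w
    rw [Algebra.smul_def]
  rw [this]
  exact RlIsCyl.mul (RlIsCyl.const _) h

theorem isCyl_cyl {r R L : ℕ} (c' : (MgSys.Wd d R → Fin L → Bool) → RlX 𝒜 → Fin r) (i : Fin r) :
    RlIsCyl S (S.cyl c' i) := by
  unfold cyl
  refine S.isCyl_sum _ _ fun lam _ => RlIsCyl.mul (RlIsCyl.const _) ?_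
  refine S.isCyl_prod _ _ fun g _ => S.isCyl_prod _ _ fun t _ => ?_
  exact S.isCyl_smul _ (RlIsCyl.add (RlIsCyl.const 1) (S.isCyl_smul _ (RlIsCyl.site g.1 t)))

theorem apply_cyl {r R L : ℕ} {c' : (MgSys.Wd d R → Fin L → Bool) → RlX 𝒜 → Fin r}
    (hc' : ∀ lam, IsLocallyConstant (c' lam)) {w : ℕ → 𝒜} (hw : RlIsSymFam w) (x : RlX 𝒜) (i : Fin r) :
    x (S.cyl c' i w) = if c' (S.lab R L w x) x = i then 1 else 0 := by
  classical
  have hfac : ∀ (lam : MgSys.Wd d R → Fin L → Bool) (g : MgSys.Wd d R) (t : Fin L),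
      x ((1 / 2 : ℂ) • (1 + (if lam g t then (1 : ℂ) else -1) • S.β g.1 (w t)))
        = if lam g t = S.lab R L w x g t then 1 else 0 := by
    intro lam g t
    rw [map_smul, map_add, map_smul, map_one, smul_eq_mul, smul_eq_mul]
    have hv : x (S.β g.1 (w t)) = 1 ∨ x (S.β g.1 (w t)) = -1 :=
      real_symFam_apply hw t (S.act g.1 x)
    have hne : (-1 : ℂ) ≠ 1 := by norm_num
    rcases hv with hv | hv
    · have hl : S.lab R L w x g t = true := by simp [lab, hv]
      rw [hl, hv]
      cases lam g t <;> norm_num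
    · have hl : S.lab R L w x g t = false := by simp [lab, hv, hne]
      rw [hl, hv]
      cases lam g t <;> norm_num
  have hprod : ∀ lam : MgSys.Wd d R → Fin L → Bool,
      x (∏ g : MgSys.Wd d R, ∏ t : Fin L,
        ((1 / 2 : ℂ) • (1 + (if lam g t then (1 : ℂ) else -1) • S.β g.1 (w t))))
        = if S.lab R L w x = lam then 1 else 0 := by
    intro lam
    rw [map_prod]
    simp only [map_prod, hfac]
    by_cases h : S.lab R L w x = lam
    · rw [if_pos h]
      refine Finset.prod_eq_one fun g _ => Finset.prod_eq_one fun t _ => ?_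
      rw [h, if_pos rfl]
    · rw [if_neg h]
      have : ∃ g t, S.lab R L w x g t ≠ lam g t := by
        by_contra hcon
        push Not at hcon
        exact h (funext fun g => funext fun t => hcon g t)
      obtain ⟨g, t, hgt⟩ := this
      refine Finset.prod_eq_zero (Finset.mem_univ g) (Finset.prod_eq_zero (Finset.mem_univ t) ?_)
      rw [if_neg fun h' => hgt h'.symm]
  rw [cyl, map_sum]
  simp only [map_mul, hprod, mul_ite, mul_one, mul_zero]
  rw [Finset.sum_ite_eq, if_pos (Finset.mem_univ _),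
    real_apply_rlProj ((hc' _).isClopen_fiber i)]
  by_cases h : c' (S.lab R L w x) x = i
  · rw [if_pos h, if_pos (show x ∈ {x_1 | c' (S.lab R L w x) x_1 = i} from h)]
  · rw [if_neg h, if_neg (show x ∉ {x_1 | c' (S.lab R L w x) x_1 = i} from h)]

theorem isPOU_cyl {r R L : ℕ} {c' : (MgSys.Wd d R → Fin L → Bool) → RlX 𝒜 → Fin r}
    (hc' : ∀ lam, IsLocallyConstant (c' lam)) {w : ℕ → 𝒜} (hw : RlIsSymFam w) :
    RlIsPOU fun i => S.cyl c' i w :=
  real_isPOU_of_apply (fun x => c' (S.lab R L w x) x) fun x i => S.apply_cyl hc' hw x i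

theorem lab_rlRand {κ : Type w} [Fintype κ] {e : κ → 𝒜} (he : RlIsPOU e) {R L t : ℕ} (hL : L ≤ t)
    (om : κ → Fin t → Bool) (x : RlX 𝒜) :
    S.lab R L (rlRand e t om) x = fun g k => om (rlCell e he (S.act g.1 x)) (Fin.castLE hL k) := by
  funext g k
  have hk : (k : ℕ) < t := lt_of_lt_of_le k.2 hL
  have h1 : x (S.β g.1 (rlRand e t om k)) =
      if om (rlCell e he (S.act g.1 x)) ⟨k, hk⟩ then 1 else -1 :=
    real_apply_rlRand he t om hk (S.act g.1 x)
  have hne : (-1 : ℂ) ≠ 1 := by norm_num
  show decide (x (S.β g.1 (rlRand e t om k)) = 1) = om (rlCell e he (S.act g.1 x)) ⟨k, hk⟩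
  rw [h1]
  cases om (rlCell e he (S.act g.1 x)) ⟨k, hk⟩ <;> simp [hne]

/-! ### LEAF Cyl-3 : separation of sites -/

open Classical in
/-- a finite family of projections separating the sites of the `R`-balls -/
def sepFam (R : ℕ) : Finset 𝒜 :=
  (Finset.univ : Finset (MgSys.Wd d (2 * R) × Fin 3)).image fun q => (S.fixData q.1.1).f q.2

theorem isStarProjection_of_mem_sepFam {R : ℕ} {f : 𝒜} (hf : f ∈ S.sepFam R) : IsStarProjection f := by
  classical
  rw [sepFam, Finset.mem_image] at hf
  obtain ⟨q, -, rfl⟩ := hf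
  exact (S.fixData q.1.1).hf q.2

theorem separates_of_refines (y : B) {κ : Type w} [Fintype κ] {e : κ → 𝒜} (he : RlIsPOU e) {R : ℕ}
    (href : RlRefines e (S.sepFam R)) : (S.toMg y).Separates (rlCell e he) R := by
  classical
  intro x g h hg hh hne hcell
  rw [S.toMg_act, S.toMg_act] at hne hcell
  have hlen : (g ++ h.reverse).length ≤ 2 * R := by
    rw [List.length_append, List.length_reverse]
    omega
  have hact : S.act (g ++ h.reverse) (S.act h x) = S.act g x := by
    rw [S.act_append, S.act_reverse_act]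
  obtain ⟨i, hi⟩ := (S.fixData (g ++ h.reverse)).exists_f_of_ne (x := S.act h x)
    (by rw [hact]; exact hne)
  have h0 := (S.fixData (g ++ h.reverse)).act_f_eq_zero hi
  rw [hact] at h0
  have hmem : (S.fixData (g ++ h.reverse)).f i ∈ S.sepFam R := by
    rw [sepFam, Finset.mem_image]
    exact ⟨(⟨g ++ h.reverse, hlen⟩, i), Finset.mem_univ _, rfl⟩
  have e1 : S.act g x (e (rlCell e he (S.act g x))) = 1 := by
    rw [real_apply_pou he, if_pos rfl]
  have e2 : S.act h x (e (rlCell e he (S.act g x))) = 1 := by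
    rw [real_apply_pou he, if_pos hcell.symm]
  rcases href (rlCell e he (S.act g x)) _ hmem with h1 | h1
  · have := congrArg (S.act g x) h1
    rw [map_mul, h0, e1, mul_zero] at this
    exact zero_ne_one this
  · have := congrArg (S.act h x) h1
    rw [map_mul, hi, e2, map_zero, mul_one] at this
    exact one_ne_zero this

end RlSys

end

end Claimed.Agent.R302
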