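/-
R302 / Real / Mom   (owner: helper234)

The moment bound at a character:  if the pinched kernel is bounded by `θ` on the `n`-ball of `x` then
`x (E (z ^ (2 n))) ≤ θ ^ (2 n)` for the pinching `z = ∑ p_i y p_i`; in general it is `≤ 1`.
Proof in the GNS picture of `ip x`:  `z ^ l ∈ Vl l`, `‖z^(l+1)‖² = ⟨z^(l+1), z z^l⟩ ≤ θ ‖z^(l+1)‖ ‖z^l‖`.
-/
import Claimed.Agent.R302.Real.Cyl

set_option autoImplicit false

namespace Claimed.Agent.R302

open MeasureTheory WeakDual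
open scoped BigOperators ComplexConjugate

noncomputable section

universe u v

namespace RlSys

variable {𝒜 : Type u} {B : Type v} [CommCStarAlgebra 𝒜] [Ring B] [StarRing B] [Algebra ℂ B]
  [StarModule ℂ B] {d : ℕ} (S : RlSys 𝒜 B d)

/-- the pinching of `y` by the family `p` -/
def pin {r : ℕ} (p : Fin r → 𝒜) (y : B) : B := ∑ i, S.ι (p i) * y * S.ι (p i)

theorem star_pin {r : ℕ} {p : Fin r → 𝒜} (hp : ∀ i, IsStarProjection (p i)) {y : B} (hy : star y = y) :
    star (S.pin p y) = S.pin p y := by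
  rw [pin, star_sum]
  refine Finset.sum_congr rfl fun i _ => ?_
  rw [star_mul, star_mul, ← map_star, (hp i).isSelfAdjoint.star_eq, hy, mul_assoc]

theorem Vl_mono {l l' : ℕ} (h : l ≤ l') : S.Vl l ≤ S.Vl l' := by
  apply Submodule.span_mono
  rintro b ⟨a, g, hg, rfl⟩
  exact ⟨a, g, hg.trans h, rfl⟩

theorem one_mem_Vl : (1 : B) ∈ S.Vl 0 :=
  Submodule.subset_span ⟨1, [], le_refl _, by simp⟩

theorem u_mul_ι (j : Fin d) (b : 𝒜) : S.u j * S.ι b = S.ι (S.α j b) * S.u j := by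
  have h := S.ι_mul_U [j] (S.α j b)
  simp only [U_cons, U_nil, mul_one, β_cons, β_nil, S.α_α] at h
  exact h.symm

theorem pin_mul_mem_Vl {r : ℕ} (p : Fin r → 𝒜) {y : B} (hy : S.IsKer y) {l : ℕ} {v : B}
    (hv : v ∈ S.Vl l) : S.pin p y * v ∈ S.Vl (l + 1) := by
  obtain ⟨a, ha⟩ := hy.coeff
  induction hv using Submodule.span_induction with
  | mem v hv =>
    obtain ⟨b, g, hg, rfl⟩ := hv
    rw [pin, Finset.sum_mul]
    refine Submodule.sum_mem _ fun i _ => ?_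
    rw [ha, Finset.mul_sum, Finset.sum_mul, Finset.sum_mul]
    refine Submodule.sum_mem _ fun j _ => ?_
    refine Submodule.subset_span ⟨p i * a j * S.α j (p i * b), j :: g, by simpa using hg, ?_⟩
    rw [map_mul, map_mul, U_cons]
    calc S.ι (p i) * (S.ι (a j) * S.u j) * S.ι (p i) * (S.ι b * S.U g)
        = S.ι (p i) * S.ι (a j) * (S.u j * S.ι (p i * b)) * S.U g := by
          rw [map_mul]; simp only [mul_assoc]
      _ = _ := by rw [S.u_mul_ι]; simp only [mul_assoc]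
  | zero => rw [mul_zero]; exact Submodule.zero_mem _
  | add v w _ _ ihv ihw => rw [mul_add]; exact Submodule.add_mem _ ihv ihw
  | smul s v _ ihv => rw [mul_smul_comm]; exact Submodule.smul_mem _ _ ihv

theorem pin_pow_mem_Vl {r : ℕ} (p : Fin r → 𝒜) {y : B} (hy : S.IsKer y) (l : ℕ) :
    S.pin p y ^ l ∈ S.Vl l := by
  induction l with
  | zero => rw [pow_zero]; exact S.one_mem_Vl
  | succ l ih => rw [pow_succ']; exact S.pin_mul_mem_Vl p hy ih

theorem ip_U_pin_U {r : ℕ} {p : Fin r → 𝒜} {c : RlX 𝒜 → Fin r}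
    (hpc : ∀ x i, x (p i) = if c x = i then 1 else 0) (y : B) (x : RlX 𝒜) (g h : List (Fin d)) :
    S.ip x (S.U g) (S.pin p y * S.U h) =
      if c (S.act g x) = c (S.act h x) then x (S.τ y g h) else 0 := by
  have h1 : ∀ i, S.ip x (S.U g) (S.ι (p i) * y * S.ι (p i) * S.U h) =
      (if c (S.act g x) = i then 1 else 0) * x (S.τ y g h) * (if c (S.act h x) = i then 1 else 0) := by
    intro i
    rw [← hpc, ← hpc, S.act_apply, S.act_apply, ← map_mul, ← map_mul, ip, τ, ← S.E_ι_mul, ← S.E_mul_ι]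
    congr 2
    calc star (S.U g) * (S.ι (p i) * y * S.ι (p i) * S.U h)
        = (star (S.U g) * S.ι (p i)) * y * (S.ι (p i) * S.U h) := by simp only [mul_assoc]
      _ = _ := by rw [S.star_U_mul_ι, S.ι_mul_U]; simp only [mul_assoc]
  rw [pin, Finset.sum_mul, S.ip_sum_right, Finset.sum_congr rfl fun i _ => h1 i]
  by_cases hc : c (S.act g x) = c (S.act h x)
  · rw [if_pos hc, Finset.sum_eq_single (c (S.act h x))]
    · simp [hc]
    · intro i _ hi
      rw [if_neg (Ne.symm hi), mul_zero]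
    · intro hn; exact absurd (Finset.mem_univ _) hn
  · rw [if_neg hc]
    refine Finset.sum_eq_zero fun i _ => ?_
    by_cases h1 : c (S.act g x) = i
    · have h3 : ¬ c (S.act h x) = i := fun h2 => hc (h1.trans h2.symm)
      simp only [if_neg h3, mul_zero]
    · simp only [if_neg h1, zero_mul]

theorem ip_Ψ_pin_Ψ {r : ℕ} {p : Fin r → 𝒜} {c : RlX 𝒜 → Fin r}
    (hpc : ∀ x i, x (p i) = if c x = i then 1 else 0) (y : B) (x : RlX 𝒜) (ξ : RlX 𝒜 →₀ ℂ)
    (h : ∀ u ∈ ξ.support, S.InOrb x u) :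
    S.ip x (S.Ψ x ξ) (S.pin p y * S.Ψ x ξ) =
      ∑ u ∈ ξ.support, ∑ v ∈ ξ.support, if c u = c v then conj (ξ u) * S.T y x u v * ξ v else 0 := by
  classical
  rw [S.ip_Ψ_mul_Ψ_gen]
  refine Finset.sum_congr rfl fun u hu => Finset.sum_congr rfl fun v hv => ?_
  have hT : S.T y x u v = x (S.τ y (S.rep x u) (S.rep x v)) := by
    rw [T, if_pos ⟨h u hu, h v hv⟩]
  rw [S.ip_U_pin_U hpc, S.act_rep (h u hu), S.act_rep (h v hv), hT]
  split_ifs <;> simp

/-- equivalent vectors have the same diagonal coefficients -/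
theorem ip_mul_congr (x : RlX 𝒜) {z : B} (hz : star z = z) {v v' : B}
    (h : ∀ b : B, S.ip x b v = S.ip x b v') : S.ip x v (z * v) = S.ip x v' (z * v') := by
  have h1 : S.ip x v (z * v) = S.ip x (z * v) v := by rw [S.ip_mul_left, hz]
  have h2 : S.ip x (z * v) v' = S.ip x v (z * v') := by rw [S.ip_mul_left, hz]
  have h3 : S.ip x v (z * v') = conj (S.ip x (z * v') v) := by rw [S.ip_conj]
  have h4 : conj (S.ip x (z * v') v') = S.ip x v' (z * v') := by rw [S.ip_conj]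
  rw [h1, h, h2, h3, h, h4]

theorem nsq_congr (x : RlX 𝒜) {v v' : B} (h : ∀ b : B, S.ip x b v = S.ip x b v') :
    S.nsq x v = S.nsq x v' := by
  have := S.ip_mul_congr x (star_one B) h
  rw [one_mul, one_mul] at this
  rw [nsq, nsq, this]

theorem norm_ip_pin_le_of_ballOK {r : ℕ} {p : Fin r → 𝒜} {c : RlX 𝒜 → Fin r}
    (hpc : ∀ x i, x (p i) = if c x = i then 1 else 0) {y : B} (hy : S.IsKer y) {x : RlX 𝒜} {m : ℕ} {θ : ℝ}
    (hball : (S.toMg y).BallOK c m θ x) {v : B} (hv : v ∈ S.Vl m) :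
    ‖S.ip x v (S.pin p y * v)‖ ≤ θ * S.nsq x v := by
  have hp : ∀ i, IsStarProjection (p i) := (real_isPOU_of_apply c hpc).1
  obtain ⟨ξ, h1, h2⟩ := S.exists_Ψ_of_mem_Vl x hv
  have horb : ∀ u ∈ ξ.support, S.InOrb x u := fun u hu => by
    obtain ⟨g, -, rfl⟩ := h1 u hu
    exact S.inOrb_act g x
  rw [S.ip_mul_congr x (S.star_pin hp hy.sa) h2, S.nsq_congr x h2, S.ip_Ψ_pin_Ψ hpc y x ξ horb,
    S.nsq_Ψ x ξ horb]
  refine hball ξ.support ξ fun u hu => ?_
  obtain ⟨g, hg, rfl⟩ := h1 u hu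
  exact ⟨g, hg, (S.toMg_act y g x).symm⟩

theorem nsq_one (x : RlX 𝒜) : S.nsq x 1 = 1 := by
  rw [nsq, ip, star_one, one_mul, S.E_one, map_one, Complex.one_re]

/-- abstract power estimate -/
theorem nsq_pow_le_of_diag (x : RlX 𝒜) {z : B} (hz : star z = z) (V : Submodule ℂ B) {θ : ℝ}
    (hθ : 0 ≤ θ) (h : ∀ v ∈ V, ‖S.ip x v (z * v)‖ ≤ θ * S.nsq x v) {n : ℕ}
    (hV : ∀ l ≤ n, z ^ l ∈ V) {l : ℕ} (hl : l ≤ n) : S.nsq x (z ^ l) ≤ θ ^ (2 * l) := by
  induction l with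
  | zero => simp [S.nsq_one]
  | succ l ih =>
    have ih' := ih (Nat.le_of_succ_le hl)
    have h1 := S.norm_ip_mul_le_of_diag x hz V hθ h (hV _ hl) (hV _ (Nat.le_of_succ_le hl))
    rw [← pow_succ', S.ip_self_eq, Complex.norm_real, Real.norm_eq_abs, sq_abs] at h1
    have hN1 := S.nsq_nonneg x (z ^ (l + 1))
    have hN0 := S.nsq_nonneg x (z ^ l)
    have h2 : S.nsq x (z ^ (l + 1)) ≤ θ ^ 2 * S.nsq x (z ^ l) := by
      rcases hN1.lt_or_eq with hpos | hzero
      · have : S.nsq x (z ^ (l + 1)) * S.nsq x (z ^ (l + 1)) ≤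
            S.nsq x (z ^ (l + 1)) * (θ ^ 2 * S.nsq x (z ^ l)) := by nlinarith [h1]
        exact le_of_mul_le_mul_left this hpos
      · rw [← hzero]; positivity
    calc S.nsq x (z ^ (l + 1)) ≤ θ ^ 2 * S.nsq x (z ^ l) := h2
      _ ≤ θ ^ 2 * θ ^ (2 * l) := by gcongr
      _ = θ ^ (2 * (l + 1)) := by ring

theorem nsq_pin_pow_le {r : ℕ} {p : Fin r → 𝒜} {c : RlX 𝒜 → Fin r}
    (hpc : ∀ x i, x (p i) = if c x = i then 1 else 0) {y : B} (hy : S.IsKer y) {x : RlX 𝒜} {n : ℕ} {θ : ℝ}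
    (hθ : 0 ≤ θ) (hball : (S.toMg y).BallOK c n θ x) {l : ℕ} (hl : l ≤ n) :
    S.nsq x (S.pin p y ^ l) ≤ θ ^ (2 * l) := by
  have hp : ∀ i, IsStarProjection (p i) := (real_isPOU_of_apply c hpc).1
  exact S.nsq_pow_le_of_diag x (S.star_pin hp hy.sa) (S.Vl n) hθ
    (fun v hv => S.norm_ip_pin_le_of_ballOK hpc hy hball hv)
    (fun l hl => S.Vl_mono hl (S.pin_pow_mem_Vl p hy l)) hl

theorem apply_E_pin_pow {r : ℕ} {p : Fin r → 𝒜} (hp : ∀ i, IsStarProjection (p i)) {y : B}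
    (hy : star y = y) (x : RlX 𝒜) (n : ℕ) :
    x (S.E (S.pin p y ^ (2 * n))) = (S.nsq x (S.pin p y ^ n) : ℂ) := by
  rw [← S.ip_self_eq, ip, star_pow, S.star_pin hp hy, ← pow_add, two_mul]

theorem moment_good {r : ℕ} {p : Fin r → 𝒜} {c : RlX 𝒜 → Fin r}
    (hpc : ∀ x i, x (p i) = if c x = i then 1 else 0) {y : B} (hy : S.IsKer y) {x : RlX 𝒜} {n : ℕ} {θ : ℝ}
    (hθ : 0 ≤ θ) (hball : (S.toMg y).BallOK c n θ x) :
    (x (S.E (S.pin p y ^ (2 * n)))).re ≤ θ ^ (2 * n) := by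
  have hp : ∀ i, IsStarProjection (p i) := (real_isPOU_of_apply c hpc).1
  rw [S.apply_E_pin_pow hp hy.sa, Complex.ofReal_re]
  exact S.nsq_pin_pow_le hpc hy hθ hball (le_refl n)

theorem norm_ip_pin_le {r : ℕ} {p : Fin r → 𝒜} (hp : RlIsPOU p) {y : B} (hy : S.IsKer y) (x : RlX 𝒜)
    (v : B) : ‖S.ip x v (S.pin p y * v)‖ ≤ S.nsq x v := by
  have hstar : ∀ i, star (S.ι (p i)) = S.ι (p i) := fun i => by
    rw [← map_star, (hp.1 i).isSelfAdjoint.star_eq]
  have h1 : S.ip x v (S.pin p y * v) = ∑ i, S.ip x (S.ι (p i) * v) (y * (S.ι (p i) * v)) := by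
    rw [pin, Finset.sum_mul, S.ip_sum_right]
    refine Finset.sum_congr rfl fun i _ => ?_
    rw [S.ip_mul_left, hstar]
    simp only [mul_assoc]
  have h2 : (S.nsq x v : ℂ) = ∑ i, (S.nsq x (S.ι (p i) * v) : ℂ) := by
    have : ∀ i, (S.nsq x (S.ι (p i) * v) : ℂ) = S.ip x v (S.ι (p i) * v) := fun i => by
      rw [← S.ip_self_eq, S.ip_mul_left, hstar, ← mul_assoc, ← map_mul, (hp.1 i).isIdempotentElem.eq]
    rw [Finset.sum_congr rfl fun i _ => this i, ← S.ip_sum_right, ← Finset.sum_mul, ← map_sum, hp.2.2,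
      map_one, one_mul, S.ip_self_eq]
  have h2' : S.nsq x v = ∑ i, S.nsq x (S.ι (p i) * v) := by exact_mod_cast h2
  rw [h1, h2']
  exact (norm_sum_le _ _).trans (Finset.sum_le_sum fun i _ => S.norm_ip_mul_le hy x _)

theorem moment_bad {r : ℕ} {p : Fin r → 𝒜} (hp : RlIsPOU p) {y : B} (hy : S.IsKer y) (x : RlX 𝒜) (n : ℕ) :
    (x (S.E (S.pin p y ^ (2 * n)))).re ≤ 1 := by
  rw [S.apply_E_pin_pow hp.1 hy.sa, Complex.ofReal_re]
  have := S.nsq_pow_le_of_diag x (S.star_pin hp.1 hy.sa) ⊤ zero_le_one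
    (fun v _ => by rw [one_mul]; exact S.norm_ip_pin_le hp hy x v) (n := n)
    (fun _ _ => Submodule.mem_top) (le_refl n)
  simpa using this

theorem moment_integral {r : ℕ} {p : Fin r → 𝒜} {c : RlX 𝒜 → Fin r}
    (hpc : ∀ x i, x (p i) = if c x = i then 1 else 0) {y : B} (hy : S.IsKer y) (n : ℕ) {θ : ℝ} (hθ : 0 ≤ θ) :
    (S.φ (S.E (S.pin p y ^ (2 * n)))).re ≤
      θ ^ (2 * n) + (S.μ {x | ¬ (S.toMg y).BallOK c n θ x}).toReal := by
  have hp : RlIsPOU p := real_isPOU_of_apply c hpc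
  set a := S.E (S.pin p y ^ (2 * n)) with ha
  set bad : Set (RlX 𝒜) := {x | ¬ (S.toMg y).BallOK c n θ x} with hbad
  set Mb := toMeasurable S.μ bad with hMb
  have hMmeas : MeasurableSet Mb := measurableSet_toMeasurable _ _
  have hint : Integrable (fun x : RlX 𝒜 => (x a).re) S.μ :=
    (real_integrable_apply S.approx S.φ S.φ_pos a).re
  have h1 : (S.φ a).re = ∫ x, (x a).re ∂S.μ := by
    rw [← S.integral_apply a]
    exact (integral_re (real_integrable_apply S.approx S.φ S.φ_pos a)).symm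
  have h2 : ∀ x : RlX 𝒜, (x a).re ≤ θ ^ (2 * n) + Mb.indicator (fun _ => (1 : ℝ)) x := by
    intro x
    by_cases hx : x ∈ bad
    · have hxM : x ∈ Mb := subset_toMeasurable _ _ hx
      rw [Set.indicator_of_mem hxM]
      have := S.moment_bad hp hy x n
      have h0 : 0 ≤ θ ^ (2 * n) := by positivity
      linarith
    · have hx' : (S.toMg y).BallOK c n θ x := not_not.1 hx
      have := S.moment_good hpc hy hθ hx'
      have h0 : 0 ≤ Mb.indicator (fun _ => (1 : ℝ)) x := Set.indicator_nonneg (fun _ _ => zero_le_one) x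
      linarith
  rw [h1]
  calc ∫ x, (x a).re ∂S.μ ≤ ∫ x, (θ ^ (2 * n) + Mb.indicator (fun _ => (1 : ℝ)) x) ∂S.μ :=
        integral_mono hint ((integrable_const _).add ((integrable_const _).indicator hMmeas)) h2
    _ = θ ^ (2 * n) + (S.μ bad).toReal := by
        rw [integral_add (integrable_const _) ((integrable_const _).indicator hMmeas),
          integral_indicator_const _ hMmeas, hMb]
        simp [Measure.real, measure_toMeasurable]

end RlSys

end

end Claimed.Agent.R302
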