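/-
R302 / Real / Main   (owner: helper234)

ABSTRACT (COL):  the colouring theorem `ColTheorem` (rule form, measured systems) implies the existence of cylinder
partitions with almost uniform marginals and small high moments of the pinching, for an abstract system `RlSys`.

Proof.  Apply `ColTheorem` to `S.toMg y` (`toMg_good`), get `R L rule`.  Approximate every `rule · lam` by a locally constant
`c' lam` off a set `D = excSet` of small measure (`exists_rule_approx`).  `b i = S.cyl c' i`, `𝓕 = S.sepFam R`.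
For a partition `e` refining `𝓕`: `cell = rlCell e`, `Separates` by `separates_of_refines`.  For `om`, `z` = restriction of `om` to the
first `L` digits: `b i (rlRand e t om)` is the projection of the clopen set `{col' z = i}` (`cyl_rlRand_eq`), `col' z = colOf z` off `D`.
Marginals: `marginal_le`.  Moments: `moment_integral` + `bad_subset` + `measure_iUnion_preimage_le`.
-/
import Claimed.Agent.R302.Real.Mom

set_option autoImplicit false

namespace Claimed.Agent.R302

open MeasureTheory WeakDual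
open scoped BigOperators ComplexConjugate

noncomputable section

universe u v w

/-- `BallOK` only depends on the colours inside the ball. -/
theorem MgSys.ballOK_congr {d : ℕ} (S : MgSys.{u} d) {r : ℕ} {c c' : S.X → Fin r} {m : ℕ} {b : ℝ} {x : S.X}
    (h : ∀ u ∈ S.ball m x, c u = c' u) (hc : S.BallOK c m b x) : S.BallOK c' m b x := by
  intro F ξ hF
  have := hc F ξ hF
  convert this using 2
  refine Finset.sum_congr rfl fun u hu => Finset.sum_congr rfl fun v hv => ?_
  rw [h u (hF hu), h v (hF hv)]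

namespace RlSys

variable {𝒜 : Type u} {B : Type v} [CommCStarAlgebra 𝒜] [Ring B] [StarRing B] [Algebra ℂ B]
  [StarModule ℂ B] {d : ℕ} (S : RlSys 𝒜 B d)

/-- the exceptional set of an approximation `c'` of a rule -/
def excSet {r R L : ℕ} (rule : RlX 𝒜 → (MgSys.Wd d R → Fin L → Bool) → Fin r)
    (c' : (MgSys.Wd d R → Fin L → Bool) → RlX 𝒜 → Fin r) : Set (RlX 𝒜) :=
  {x | ∃ lam, rule x lam ≠ c' lam x}

/-- the colouring produced by `c'`, a cell map and a labelling of the cells -/
def col' {κ : Type w} {r R L : ℕ} (c' : (MgSys.Wd d R → Fin L → Bool) → RlX 𝒜 → Fin r)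
    (cell : RlX 𝒜 → κ) (z : κ → Fin L → Bool) (x : RlX 𝒜) : Fin r :=
  c' (fun g k => z (cell (S.act g.1 x)) k) x

/-! ### LEAF Main-1 -/

theorem exists_rule_approx {r R L : ℕ} (hr : 0 < r)
    (rule : RlX 𝒜 → (MgSys.Wd d R → Fin L → Bool) → Fin r) (hrule : ∀ lam, Measurable fun x => rule x lam)
    {δ : ℝ} (hδ : 0 < δ) :
    ∃ c' : (MgSys.Wd d R → Fin L → Bool) → RlX 𝒜 → Fin r, (∀ lam, IsLocallyConstant (c' lam)) ∧
      MeasurableSet (excSet rule c') ∧ (S.μ (excSet rule c')).toReal ≤ δ := by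
  classical
  set N : ℕ := Fintype.card (MgSys.Wd d R → Fin L → Bool) with hN
  have hNpos : 0 < N := Fintype.card_pos
  have hε : 0 < ENNReal.ofReal (δ / N) := ENNReal.ofReal_pos.2 (by positivity)
  choose c' hc' hμ using fun lam : MgSys.Wd d R → Fin L → Bool =>
    real_exists_isLocallyConstant_approx S.μ hr (hrule lam) hε
  have hset : excSet rule c' = ⋃ lam, {x | rule x lam ≠ c' lam x} := by
    ext x
    simp [excSet]
  have hmeas : ∀ lam, MeasurableSet {x | rule x lam ≠ c' lam x} := fun lam =>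
    (measurableSet_eq_fun (hrule lam)
      (real_measurable_of_isLocallyConstant (hc' lam))).compl
  refine ⟨c', hc', ?_, ?_⟩
  · rw [hset]
    exact MeasurableSet.iUnion hmeas
  · have h1 : S.μ (excSet rule c') ≤ ENNReal.ofReal δ := by
      calc S.μ (excSet rule c') ≤ ∑ lam, S.μ {x | rule x lam ≠ c' lam x} := by
            rw [hset]
            exact measure_iUnion_fintype_le _ _
        _ ≤ ∑ _lam : MgSys.Wd d R → Fin L → Bool, ENNReal.ofReal (δ / N) :=
            Finset.sum_le_sum fun lam _ => (hμ lam).le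
        _ = ENNReal.ofReal δ := by
            rw [Finset.sum_const, Finset.card_univ, ← hN, nsmul_eq_mul,
              ← ENNReal.ofReal_natCast, ← ENNReal.ofReal_mul (by positivity)]
            congr 1
            field_simp
    exact ENNReal.toReal_le_of_le_ofReal hδ.le h1

theorem col'_eq_colOf (y : B) {κ : Type w} {r R L : ℕ}
    (rule : RlX 𝒜 → (MgSys.Wd d R → Fin L → Bool) → Fin r)
    (c' : (MgSys.Wd d R → Fin L → Bool) → RlX 𝒜 → Fin r) (cell : RlX 𝒜 → κ) (z : κ → Fin L → Bool)
    {x : RlX 𝒜} (hx : x ∉ excSet rule c') :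
    S.col' c' cell z x = (S.toMg y).colOf rule cell z x := by
  have h : ∀ lam, rule x lam = c' lam x := by
    intro lam
    by_contra hne
    exact hx ⟨lam, hne⟩
  rw [col', MgSys.colOf, h]
  simp only [S.toMg_act]

theorem isClopen_col' {κ : Type w} {r R L : ℕ} {c' : (MgSys.Wd d R → Fin L → Bool) → RlX 𝒜 → Fin r}
    (hc' : ∀ lam, IsLocallyConstant (c' lam)) {cell : RlX 𝒜 → κ} (hcell : IsLocallyConstant cell)
    (z : κ → Fin L → Bool) (i : Fin r) : IsClopen {x | S.col' c' cell z x = i} := by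
  refine IsLocallyConstant.isClopen_fiber ?_ i
  rw [IsLocallyConstant.iff_exists_open]
  intro x
  refine ⟨(⋂ g : MgSys.Wd d R, {x' | cell (S.act g.1 x') = cell (S.act g.1 x)}) ∩
    {x' | c' (fun g k => z (cell (S.act g.1 x)) k) x' = c' (fun g k => z (cell (S.act g.1 x)) k) x},
    ?_, ?_, ?_⟩
  · refine IsOpen.inter (isOpen_iInter_of_finite fun g => ?_) ?_
    · exact ((hcell.isClopen_fiber _).preimage (S.continuous_act g.1)).isOpen
    · exact ((hc' _).isClopen_fiber _).isOpen
  · refine ⟨Set.mem_iInter.2 fun g => rfl, rfl⟩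
  · rintro x' ⟨h1, h2⟩
    rw [Set.mem_iInter] at h1
    have h3 : (fun (g : MgSys.Wd d R) (k : Fin L) => z (cell (S.act g.1 x')) k)
        = fun g k => z (cell (S.act g.1 x)) k := by
      funext g k
      rw [show cell (S.act g.1 x') = cell (S.act g.1 x) from h1 g]
    rw [col', col', h3]
    exact h2

theorem cyl_rlRand_eq {κ : Type w} [Fintype κ] {e : κ → 𝒜} (he : RlIsPOU e) {r R L t : ℕ} (hL : L ≤ t)
    {c' : (MgSys.Wd d R → Fin L → Bool) → RlX 𝒜 → Fin r} (hc' : ∀ lam, IsLocallyConstant (c' lam))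
    (om : κ → Fin t → Bool) (i : Fin r) :
    S.cyl c' i (rlRand e t om) =
      rlProj {x | S.col' c' (rlCell e he) (fun c k => om c (Fin.castLE hL k)) x = i} := by
  classical
  refine real_ext fun x => ?_
  rw [S.apply_cyl hc' (real_isSymFam_rlRand he t om), S.lab_rlRand he hL,
    real_apply_rlProj (S.isClopen_col' hc' (real_isLocallyConstant_rlCell he) _ i)]
  by_cases h : S.col' c' (rlCell e he) (fun c k => om c (Fin.castLE hL k)) x = i
  · rw [if_pos (show x ∈ {x | S.col' c' (rlCell e he) (fun c k => om c (Fin.castLE hL k)) x = i}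
      from h)]
    exact if_pos h
  · rw [if_neg (show x ∉ {x | S.col' c' (rlCell e he) (fun c k => om c (Fin.castLE hL k)) x = i}
      from h)]
    exact if_neg h

theorem bad_subset (y : B) {κ : Type w} {r R L : ℕ}
    (rule : RlX 𝒜 → (MgSys.Wd d R → Fin L → Bool) → Fin r)
    (c' : (MgSys.Wd d R → Fin L → Bool) → RlX 𝒜 → Fin r) (cell : RlX 𝒜 → κ) (z : κ → Fin L → Bool)
    (n : ℕ) (θ : ℝ) :
    {x | ¬ (S.toMg y).BallOK (S.col' c' cell z) n θ x} ⊆
      {x | ¬ (S.toMg y).BallOK ((S.toMg y).colOf rule cell z) n θ x} ∪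
        ⋃ g : MgSys.Wd d n, S.act g.1 ⁻¹' excSet rule c' := by
  intro x hx
  by_contra hcon
  rw [Set.mem_union, not_or] at hcon
  obtain ⟨h1, h2⟩ := hcon
  have h1' : (S.toMg y).BallOK ((S.toMg y).colOf rule cell z) n θ x := not_not.1 h1
  rw [Set.mem_iUnion, not_exists] at h2
  apply hx
  refine MgSys.ballOK_congr (S.toMg y) (fun u hu => ?_) h1'
  obtain ⟨g, hg, rfl⟩ := hu
  rw [S.toMg_act]
  exact (S.col'_eq_colOf y rule c' cell z (h2 ⟨g, hg⟩)).symm

theorem measure_iUnion_preimage_le (n : ℕ) {s : Set (RlX 𝒜)} (hs : MeasurableSet s) :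
    (S.μ (⋃ g : MgSys.Wd d n, S.act g.1 ⁻¹' s)).toReal ≤
      (Fintype.card (MgSys.Wd d n) : ℝ) * S.KK ^ n * (S.μ s).toReal := by
  have h1 : S.μ (⋃ g : MgSys.Wd d n, S.act g.1 ⁻¹' s) ≤ ∑ g : MgSys.Wd d n, S.μ (S.act g.1 ⁻¹' s) :=
    measure_iUnion_fintype_le _ _
  have h2 : (S.μ (⋃ g : MgSys.Wd d n, S.act g.1 ⁻¹' s)).toReal
      ≤ ∑ g : MgSys.Wd d n, (S.μ (S.act g.1 ⁻¹' s)).toReal := by
    rw [← ENNReal.toReal_sum fun g _ => measure_ne_top _ _]
    exact ENNReal.toReal_mono (ENNReal.sum_ne_top.2 fun g _ => measure_ne_top _ _) h1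
  refine h2.trans ?_
  calc ∑ g : MgSys.Wd d n, (S.μ (S.act g.1 ⁻¹' s)).toReal
      ≤ ∑ _g : MgSys.Wd d n, S.KK ^ n * (S.μ s).toReal := by
        refine Finset.sum_le_sum fun g _ => (S.measure_preimage_act_le g.1 hs).trans ?_
        have := pow_le_pow_right₀ S.one_le_KK g.2
        gcongr
    _ = _ := by
        rw [Finset.sum_const, Finset.card_univ, nsmul_eq_mul, mul_assoc]

/-! ### LEAF Main-2 -/

/-- marginals -/
theorem marginal_le (y : B) {κ : Type w} [Fintype κ] [DecidableEq κ] {r R L : ℕ}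
    (rule : RlX 𝒜 → (MgSys.Wd d R → Fin L → Bool) → Fin r)
    {c' : (MgSys.Wd d R → Fin L → Bool) → RlX 𝒜 → Fin r} (hc' : ∀ lam, IsLocallyConstant (c' lam))
    (hD : MeasurableSet (excSet rule c'))
    {cell : RlX 𝒜 → κ} (hcell : IsLocallyConstant cell) (i : Fin r)
    (hmarg : ∀ x : RlX 𝒜,
      r * (Finset.univ.filter fun z : κ → Fin L → Bool => (S.toMg y).colOf rule cell z x = i).card
          = Fintype.card (κ → Fin L → Bool))
    {a : 𝒜} (ha : ‖a‖ ≤ 1) :
    ‖(∑ z : κ → Fin L → Bool, S.φ (a * rlProj {x | S.col' c' cell z x = i})) /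
        (Fintype.card (κ → Fin L → Bool) : ℂ) - S.φ a / r‖ ≤ (S.μ (excSet rule c')).toReal := by
  classical
  set N : ℕ := Fintype.card (κ → Fin L → Bool) with hN
  have hNpos : 0 < N := Fintype.card_pos
  set D := excSet rule c' with hDdef
  -- the element whose state is the left hand side
  set b : 𝒜 := (1 / (N : ℂ)) • ∑ z : κ → Fin L → Bool, a * rlProj {x | S.col' c' cell z x = i}
    - (1 / (r : ℂ)) • a with hb
  have hφb : (∑ z : κ → Fin L → Bool, S.φ (a * rlProj {x | S.col' c' cell z x = i})) / (N : ℂ)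
      - S.φ a / r = S.φ b := by
    rw [hb, map_sub, map_smul, map_smul, map_sum, smul_eq_mul, smul_eq_mul]
    ring
  rw [hφb, ← S.integral_apply b]
  -- pointwise formula
  have hxb : ∀ x : RlX 𝒜, x b = x a *
      (((((Finset.univ.filter fun z : κ → Fin L → Bool => S.col' c' cell z x = i).card : ℝ) / N
        - 1 / r : ℝ)) : ℂ) := by
    intro x
    rw [hb, map_sub, map_smul, map_smul, map_sum, smul_eq_mul, smul_eq_mul]
    have h1 : ∀ z : κ → Fin L → Bool, x (a * rlProj {x | S.col' c' cell z x = i})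
        = x a * if S.col' c' cell z x = i then 1 else 0 := by
      intro z
      rw [map_mul, real_apply_rlProj (S.isClopen_col' hc' hcell z i)]
      by_cases h : S.col' c' cell z x = i
      · rw [if_pos h, if_pos (show x ∈ {x | S.col' c' cell z x = i} from h)]
      · rw [if_neg h, if_neg (show x ∉ {x | S.col' c' cell z x = i} from h)]
    simp only [h1]
    rw [← Finset.mul_sum, Finset.sum_boole]
    push_cast
    ring
  have hbound : ∀ x : RlX 𝒜, ‖x b‖ ≤ D.indicator (fun _ => (1 : ℝ)) x := by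
    intro x
    rw [hxb, norm_mul, Complex.norm_real, Real.norm_eq_abs]
    by_cases hx : x ∈ D
    · rw [Set.indicator_of_mem hx]
      have h1 : ‖x a‖ ≤ 1 := (real_norm_apply_le x a).trans ha
      have h2 : (0 : ℝ) ≤ ((Finset.univ.filter fun z : κ → Fin L → Bool =>
          S.col' c' cell z x = i).card : ℝ) / N := by positivity
      have h3 : ((Finset.univ.filter fun z : κ → Fin L → Bool =>
          S.col' c' cell z x = i).card : ℝ) / N ≤ 1 := by
        rw [div_le_one (by exact_mod_cast hNpos)]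
        exact_mod_cast Finset.card_le_univ _
      have h4 : (0 : ℝ) ≤ 1 / r := by positivity
      have h5 : (1 : ℝ) / r ≤ 1 := by
        rcases Nat.eq_zero_or_pos r with h0 | h0
        · simp [h0]
        · rw [div_le_one (by exact_mod_cast h0)]
          exact_mod_cast h0
      have h6 : |((Finset.univ.filter fun z : κ → Fin L → Bool =>
          S.col' c' cell z x = i).card : ℝ) / N - 1 / r| ≤ 1 := by
        rw [abs_le]
        constructor <;> linarith
      calc ‖x a‖ * _ ≤ 1 * 1 := mul_le_mul h1 h6 (abs_nonneg _) zero_le_one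
        _ = 1 := one_mul 1
    · rw [Set.indicator_of_notMem hx]
      have h1 : (Finset.univ.filter fun z : κ → Fin L → Bool => S.col' c' cell z x = i)
          = Finset.univ.filter fun z : κ → Fin L → Bool => (S.toMg y).colOf rule cell z x = i := by
        refine Finset.filter_congr fun z _ => ?_
        rw [S.col'_eq_colOf y rule c' cell z hx]
      have h2 := hmarg x
      rw [← h1] at h2
      have h3 : (r : ℝ) * ((Finset.univ.filter fun z : κ → Fin L → Bool =>
          S.col' c' cell z x = i).card : ℝ) = N := by exact_mod_cast h2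
      have hr0 : (r : ℝ) ≠ 0 := by
        intro h0
        rw [h0, zero_mul] at h3
        exact (Nat.cast_ne_zero.2 hNpos.ne') h3.symm
      have hN0 : (N : ℝ) ≠ 0 := Nat.cast_ne_zero.2 hNpos.ne'
      have h4 : ((Finset.univ.filter fun z : κ → Fin L → Bool =>
          S.col' c' cell z x = i).card : ℝ) / N - 1 / r = 0 := by
        rw [sub_eq_zero, div_eq_div_iff hN0 hr0, one_mul, mul_comm]
        exact h3
      rw [h4, abs_zero, mul_zero]
  have hint : Integrable (D.indicator fun _ => (1 : ℝ)) S.μ := (integrable_const _).indicator hD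
  refine (norm_integral_le_of_norm_le hint (Filter.Eventually.of_forall hbound)).trans ?_
  rw [integral_indicator_const _ hD, measureReal_def, smul_eq_mul, mul_one]

/-- moments -/
theorem moment_avg_le {y : B} (hy : S.IsKer y) {κ : Type w} [Fintype κ] [DecidableEq κ] {r R L : ℕ}
    (rule : RlX 𝒜 → (MgSys.Wd d R → Fin L → Bool) → Fin r)
    {c' : (MgSys.Wd d R → Fin L → Bool) → RlX 𝒜 → Fin r} (hc' : ∀ lam, IsLocallyConstant (c' lam))
    (hD : MeasurableSet (excSet rule c'))
    {cell : RlX 𝒜 → κ} (hcell : IsLocallyConstant cell) (n : ℕ) {θ η₁ : ℝ} (hθ : 0 ≤ θ)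
    (hbad : (∑ z : κ → Fin L → Bool,
        (S.μ {x | ¬ (S.toMg y).BallOK ((S.toMg y).colOf rule cell z) n θ x}).toReal)
          ≤ η₁ * (Fintype.card (κ → Fin L → Bool) : ℝ)) :
    ((∑ z : κ → Fin L → Bool,
        S.φ (S.E (S.pin (fun i => rlProj {x | S.col' c' cell z x = i}) y ^ (2 * n)))) /
        (Fintype.card (κ → Fin L → Bool) : ℂ)).re ≤
      θ ^ (2 * n) + η₁ +
        (Fintype.card (MgSys.Wd d n) : ℝ) * S.KK ^ n * (S.μ (excSet rule c')).toReal := by
  classical
  set N : ℕ := Fintype.card (κ → Fin L → Bool) with hN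
  have hNpos : (0 : ℝ) < N := by exact_mod_cast (Fintype.card_pos : 0 < Fintype.card (κ → Fin L → Bool))
  set Cn : ℝ := (Fintype.card (MgSys.Wd d n) : ℝ) * S.KK ^ n * (S.μ (excSet rule c')).toReal with hCn
  have hz : ∀ z : κ → Fin L → Bool,
      (S.φ (S.E (S.pin (fun i => rlProj {x | S.col' c' cell z x = i}) y ^ (2 * n)))).re ≤
        θ ^ (2 * n) + (S.μ {x | ¬ (S.toMg y).BallOK ((S.toMg y).colOf rule cell z) n θ x}).toReal
          + Cn := by
    intro z
    have hpc : ∀ (x : RlX 𝒜) (i : Fin r), x (rlProj {x | S.col' c' cell z x = i})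
        = if S.col' c' cell z x = i then 1 else 0 := by
      intro x i
      rw [real_apply_rlProj (S.isClopen_col' hc' hcell z i)]
      by_cases h : S.col' c' cell z x = i
      · rw [if_pos h, if_pos (show x ∈ {x | S.col' c' cell z x = i} from h)]
      · rw [if_neg h, if_neg (show x ∉ {x | S.col' c' cell z x = i} from h)]
    have h1 := S.moment_integral (p := fun i => rlProj {x | S.col' c' cell z x = i})
      (c := S.col' c' cell z) hpc hy n hθ
    have h2 : S.μ {x | ¬ (S.toMg y).BallOK (S.col' c' cell z) n θ x} ≤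
        S.μ {x | ¬ (S.toMg y).BallOK ((S.toMg y).colOf rule cell z) n θ x} +
          S.μ (⋃ g : MgSys.Wd d n, S.act g.1 ⁻¹' excSet rule c') :=
      (measure_mono (S.bad_subset y rule c' cell z n θ)).trans (measure_union_le _ _)
    have h3 : (S.μ {x | ¬ (S.toMg y).BallOK (S.col' c' cell z) n θ x}).toReal ≤
        (S.μ {x | ¬ (S.toMg y).BallOK ((S.toMg y).colOf rule cell z) n θ x}).toReal +
          (S.μ (⋃ g : MgSys.Wd d n, S.act g.1 ⁻¹' excSet rule c')).toReal := by
      rw [← ENNReal.toReal_add (measure_ne_top _ _) (measure_ne_top _ _)]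
      exact ENNReal.toReal_mono (ENNReal.add_ne_top.2 ⟨measure_ne_top _ _, measure_ne_top _ _⟩) h2
    have h4 := S.measure_iUnion_preimage_le n hD
    linarith
  rw [Complex.div_natCast_re, Complex.re_sum, div_le_iff₀ hNpos]
  calc ∑ z : κ → Fin L → Bool,
        (S.φ (S.E (S.pin (fun i => rlProj {x | S.col' c' cell z x = i}) y ^ (2 * n)))).re
      ≤ ∑ z : κ → Fin L → Bool, (θ ^ (2 * n)
          + (S.μ {x | ¬ (S.toMg y).BallOK ((S.toMg y).colOf rule cell z) n θ x}).toReal + Cn) :=
        Finset.sum_le_sum fun z _ => hz z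
    _ = N * θ ^ (2 * n) + (∑ z : κ → Fin L → Bool,
          (S.μ {x | ¬ (S.toMg y).BallOK ((S.toMg y).colOf rule cell z) n θ x}).toReal) + N * Cn := by
        rw [Finset.sum_add_distrib, Finset.sum_add_distrib, Finset.sum_const, Finset.sum_const,
          Finset.card_univ, nsmul_eq_mul, nsmul_eq_mul]
    _ ≤ N * θ ^ (2 * n) + η₁ * N + N * Cn := by linarith
    _ = (θ ^ (2 * n) + η₁ + Cn) * N := by ring

end RlSys

/-! ### LEAF Main-3 -/

/-- **Abstract (COL).** -/
theorem real_col_abs (hcol : ColTheorem.{u, u}) {𝒜 : Type u} {B : Type v} [CommCStarAlgebra 𝒜] [Ring B]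
    [StarRing B] [Algebra ℂ B] [StarModule ℂ B] {d : ℕ} (S : RlSys 𝒜 B d) {y : B} (hy : S.IsKer y)
    {r : ℕ} (hr : ∃ a : ℕ, r = 2 ^ a) {t : ℝ} (ht : 3 / Real.sqrt r < t) (n : ℕ) {α η : ℝ} (hα : 0 < α)
    (hη : 0 < η) :
    ∃ (L : ℕ) (b : Fin r → (ℕ → 𝒜) → 𝒜) (𝓕 : Finset 𝒜),
      (∀ f ∈ 𝓕, IsStarProjection f) ∧ (∀ i, RlIsCyl S (b i)) ∧
      (∀ w, RlIsSymFam w → RlIsPOU fun i => b i w) ∧
      ∀ (κ : Type u) [Fintype κ] [DecidableEq κ] (e : κ → 𝒜), RlIsPOU e → RlRefines e 𝓕 →
        ∀ t' : ℕ, L ≤ t' →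
        (∀ (i : Fin r) (a : 𝒜), ‖a‖ ≤ 1 →
          ‖(∑ om : κ → Fin t' → Bool, S.φ (a * b i (rlRand e t' om))) /
              (Fintype.card (κ → Fin t' → Bool) : ℂ) - S.φ a / r‖ ≤ η) ∧
        ((∑ om : κ → Fin t' → Bool,
            S.φ (S.E (S.pin (fun i => b i (rlRand e t' om)) y ^ (2 * n)))) /
              (Fintype.card (κ → Fin t' → Bool) : ℂ)).re ≤ (160 * t + α) ^ (2 * n) + η := by
  classical
  have hrpos : 0 < r := by
    obtain ⟨a, rfl⟩ := hr
    positivity
  have htpos : 0 < t := lt_of_le_of_lt (by positivity) ht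
  have hθ : (0 : ℝ) ≤ 160 * t + α := by positivity
  obtain ⟨R, L, rule, hrule, hmain⟩ :=
    hcol d (S.toMg y) S.KK (S.toMg_good hy) r t hr ht n α (η / 2) hα (half_pos hη)
  set Cn : ℝ := (Fintype.card (MgSys.Wd d n) : ℝ) * S.KK ^ n with hCn
  have hCn0 : 0 ≤ Cn := by
    have := S.KK_pos
    positivity
  have hδ : 0 < η / (2 * (Cn + 1)) := by positivity
  obtain ⟨c', hc', hD, hμD⟩ := S.exists_rule_approx hrpos rule hrule hδ
  have hδ1 : η / (2 * (Cn + 1)) ≤ η := by
    rw [div_le_iff₀ (by positivity)]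
    nlinarith
  have hδ2 : Cn * (S.μ (RlSys.excSet rule c')).toReal ≤ η / 2 := by
    calc Cn * (S.μ (RlSys.excSet rule c')).toReal ≤ Cn * (η / (2 * (Cn + 1))) := by gcongr
      _ = (η / 2) * (Cn / (Cn + 1)) := by field_simp
      _ ≤ (η / 2) * 1 := by
          have : Cn / (Cn + 1) ≤ 1 := by
            rw [div_le_one (by positivity)]
            linarith
          gcongr
      _ = η / 2 := mul_one _
  refine ⟨L, fun i => S.cyl c' i, S.sepFam R, fun f hf => S.isStarProjection_of_mem_sepFam hf,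
    fun i => S.isCyl_cyl c' i, fun w hw => S.isPOU_cyl hc' hw, ?_⟩
  intro κ _ _ e he href t' hL
  have hcell : IsLocallyConstant (rlCell e he) := real_isLocallyConstant_rlCell he
  obtain ⟨hmarg, hbad⟩ := hmain κ (rlCell e he)
    (fun i => real_measurableSet_of_isClopen (hcell.isClopen_fiber i))
    (S.separates_of_refines y he href)
  constructor
  · intro i a ha
    have h1 := real_avg_restrict (κ := κ) hL
      (fun z => S.φ (a * rlProj {x | S.col' c' (rlCell e he) z x = i}))
    simp only [S.cyl_rlRand_eq he hL hc']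
    rw [h1]
    exact ((S.marginal_le y rule hc' hD hcell i (fun x => hmarg x i) ha).trans hμD).trans hδ1
  · have h1 := real_avg_restrict (κ := κ) hL
      (fun z => S.φ (S.E (S.pin (fun i => rlProj {x | S.col' c' (rlCell e he) z x = i}) y ^ (2 * n))))
    simp only [S.cyl_rlRand_eq he hL hc']
    rw [h1]
    have h2 := S.moment_avg_le hy rule hc' hD hcell n hθ hbad
    rw [← hCn] at h2
    linarith

end

end Claimed.Agent.R302
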