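/-
R302 / Real / Glue   (owner: helper234)

Instantiation of the abstract package REAL:  `𝒜 := S.A`, `B := S.M` for `S : StData H` with a unit vector, and a finite family of
symmetric unitary normalisers `u : Fin D → _`.   Output:  `real_col : ColTheorem → OpColHyp S (2 ^ a) ε`  (interface of TR/Hyp.lean).

Everything here is bookkeeping: coercions `S.A → S.M → B(H)`, ST exports (`st_EA_*`, `st_EA_conj`, `st_fix_three`, `st_GN_mul`, `st_sym_GN`,
`st_Nalg_repr`, `st_phi_faithful`, `st_part_*`), VN export `vn_masa_exists_finite_spectrum_approx`.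
-/
import Claimed.Agent.R302.Real.Main
import Claimed.Agent.R302.ST.Hyp
import Claimed.Agent.R302.TR.Hyp

set_option autoImplicit false

namespace Claimed.Agent.R302

open scoped BigOperators ComplexConjugate InnerProductSpace
open Filter Topology

noncomputable section

universe u

variable {H : Type u} [NormedAddCommGroup H] [InnerProductSpace ℂ H] [CompleteSpace H]

theorem real_glue_isClosed (S : StData H) : IsClosed (S.A : Set (H →L[ℂ] H)) := by
  have h := (vn_masaVN S.M S.A S.masa).centralizer_centralizer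
  have h2 : (S.A : Set (H →L[ℂ] H)) =
      ⋂ c ∈ Set.centralizer (S.A : Set (H →L[ℂ] H)), {y : H →L[ℂ] H | c * y = y * c} := by
    conv_lhs => rw [show (S.A : Set (H →L[ℂ] H)) = ((vn_masaVN S.M S.A S.masa : VonNeumannAlgebra H) :
      Set (H →L[ℂ] H)) from rfl, ← h]
    ext y
    simp only [Set.mem_centralizer_iff, Set.mem_iInter]
    rfl
  rw [h2]
  refine isClosed_biInter fun c _ => ?_
  exact isClosed_eq (continuous_const.mul continuous_id) (continuous_id.mul continuous_const)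

/-- `S.A` as a commutative C*-algebra -/
instance real_glue_commCStar (S : StData H) : CommCStarAlgebra ↥S.A :=
  haveI := real_glue_isClosed S
  { (StarSubalgebra.cstarAlgebra S.A : CStarAlgebra ↥S.A) with
    mul_comm := fun a b => Subtype.ext (((S.masa a.1).1 a.2).2 b.1 b.2) }

/-- the ambient `*`-algebra -/
abbrev StData.MB (S : StData H) : Type u := ↥S.M.toStarSubalgebra

theorem real_glue_le (S : StData H) : S.A ≤ S.M.toStarSubalgebra := fun _ ha => ((S.masa _).1 ha).1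

/-- positive elements of `S.A` are squares in `S.A` -/
theorem real_glue_sq (S : StData H) {a : H →L[ℂ] H} (ha : a ∈ S.A) (h0 : 0 ≤ a) :
    ∃ c : ↥S.A, (⟨a, ha⟩ : ↥S.A) = star c * c := by
  refine ⟨⟨CFC.sqrt a, st_sqrt_mem_A S ha⟩, Subtype.ext ?_⟩
  show a = star (CFC.sqrt a) * CFC.sqrt a
  rw [(CFC.sqrt_nonneg a).isSelfAdjoint.star_eq, CFC.sqrt_mul_sqrt_self a h0]

theorem real_glue_proj (S : StData H) {e : H →L[ℂ] H} (he : e ∈ S.A) (hp : IsStarProjection e) :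
    IsStarProjection (⟨e, he⟩ : ↥S.A) :=
  ⟨Subtype.ext hp.isIdempotentElem, Subtype.ext hp.isSelfAdjoint⟩

theorem real_glue_proj_coe (S : StData H) {e : ↥S.A} (hp : IsStarProjection e) :
    IsStarProjection (e : H →L[ℂ] H) :=
  ⟨congrArg Subtype.val hp.isIdempotentElem, congrArg Subtype.val hp.isSelfAdjoint⟩

/-- the operator of a word -/
def real_glue_U {D : ℕ} (u : Fin D → H →L[ℂ] H) (g : List (Fin D)) : H →L[ℂ] H := (g.map u).prod

theorem real_glue_normU (S : StData H) {D : ℕ} (u : Fin D → H →L[ℂ] H) (hu : ∀ k, S.IsSym (u k))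
    (g : List (Fin D)) : S.IsNormU (real_glue_U u g) := by
  induction g with
  | nil =>
    refine ⟨S.M.one_mem, by simp [real_glue_U], by simp [real_glue_U], fun a ha => ?_, fun a ha => ?_⟩ <;>
    simpa [real_glue_U] using ha
  | cons k g ih =>
    obtain ⟨h1, h2, h3, h4, h5⟩ := ih
    obtain ⟨k1, k2, k3, k4, -⟩ := hu k
    have hU : real_glue_U u (k :: g) = u k * real_glue_U u g := by simp [real_glue_U]
    rw [hU]
    refine ⟨S.M.mul_mem k1 h1, ?_, ?_, fun a ha => ?_, fun a ha => ?_⟩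
    · rw [star_mul, k2.star_eq, mul_assoc, ← mul_assoc (u k), k3, one_mul, h2]
    · rw [star_mul, k2.star_eq, mul_assoc, ← mul_assoc (real_glue_U u g), h3, one_mul, k3]
    · have := k4 _ (h4 a ha)
      rw [star_mul, k2.star_eq]
      simpa only [mul_assoc] using this
    · have := h5 _ (k4 a ha)
      rw [star_mul, k2.star_eq]
      simpa only [mul_assoc] using this

theorem real_glue_coe_prod (S : StData H) {D : ℕ} (u : Fin D → H →L[ℂ] H) (hu : ∀ k, u k ∈ S.M)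
    (g : List (Fin D)) :
    (((g.map fun k => (⟨u k, hu k⟩ : S.MB)).prod : S.MB) : H →L[ℂ] H) = real_glue_U u g := by
  induction g with
  | nil => rfl
  | cons k g ih =>
    simp only [List.map_cons, List.prod_cons, real_glue_U]
    show u k * _ = _
    rw [ih]; rfl

theorem real_glue_fix (S : StData H) {D : ℕ} (u : Fin D → H →L[ℂ] H) (hu : ∀ k, S.IsSym (u k))
    (g : List (Fin D)) :
    ∃ (e c : ↥S.A) (f : Fin 3 → ↥S.A), IsStarProjection e ∧ (∀ i, IsStarProjection (f i)) ∧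
      e + ∑ i, f i = 1 ∧ real_glue_U u g * e.1 = c.1 ∧ ∀ i, (f i).1 * real_glue_U u g * (f i).1 = 0 := by
  have hN := real_glue_normU S u hu g
  obtain ⟨f, e, hf, he, hsum, -, -, hvf, -, hmove⟩ := st_fix_three S (st_normU_GN S hN)
  refine ⟨⟨f, hf.1⟩, ⟨_, hvf⟩, fun i => ⟨e i, (he i).1⟩, real_glue_proj S hf.1 hf.2,
    fun i => real_glue_proj S (he i).1 (he i).2, Subtype.ext ?_, rfl, fun i => ?_⟩
  · rw [hN.2.1] at hsum
    simpa using hsum
  · have h := hmove i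
    have h2 : e i * (real_glue_U u g * e i * star (real_glue_U u g)) * real_glue_U u g = 0 := by
      rw [h, zero_mul]
    calc e i * real_glue_U u g * e i
        = e i * (real_glue_U u g * e i * (star (real_glue_U u g) * real_glue_U u g)) := by
          rw [hN.2.1, mul_one]; simp only [mul_assoc]
      _ = e i * (real_glue_U u g * e i * star (real_glue_U u g)) * real_glue_U u g := by
          simp only [mul_assoc]
      _ = 0 := h2

theorem real_glue_approx (S : StData H) : RlApprox ↥S.A := by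
  intro a ha ε hε
  obtain ⟨n, e, c, h1, -, -, -, h2⟩ := vn_masa_exists_finite_spectrum_approx S.M S.A S.masa a.2
    (congrArg Subtype.val ha : star a.1 = a.1) hε
  refine ⟨n, fun i => ⟨e i, (h1 i).1⟩, c, fun i => real_glue_proj S (h1 i).1 (h1 i).2, ?_⟩
  have : ((a - ∑ i, (c i : ℂ) • (⟨e i, (h1 i).1⟩ : ↥S.A) : ↥S.A) : H →L[ℂ] H) =
      a.1 - ∑ i, (c i : ℂ) • e i := by
    simp
  calc ‖a - ∑ i, (c i : ℂ) • (⟨e i, (h1 i).1⟩ : ↥S.A)‖
      = ‖((a - ∑ i, (c i : ℂ) • (⟨e i, (h1 i).1⟩ : ↥S.A) : ↥S.A) : H →L[ℂ] H)‖ := rfl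
    _ ≤ ε := by rw [this]; exact h2

/-- conjugation by a symmetric normaliser as an endomorphism of `S.A` -/
def real_glue_alpha (S : StData H) {u : H →L[ℂ] H} (hu : S.IsSym u) : ↥S.A →⋆ₐ[ℂ] ↥S.A where
  toFun a := ⟨u * a.1 * u, hu.2.2.2.1 a.1 a.2⟩
  map_one' := Subtype.ext (by simp [hu.2.2.1])
  map_mul' a b := Subtype.ext (by
    show u * (a.1 * b.1) * u = (u * a.1 * u) * (u * b.1 * u)
    calc u * (a.1 * b.1) * u = u * a.1 * 1 * b.1 * u := by simp only [mul_assoc, one_mul]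
      _ = (u * a.1 * u) * (u * b.1 * u) := by rw [← hu.2.2.1]; simp only [mul_assoc])
  map_zero' := Subtype.ext (by simp)
  map_add' a b := Subtype.ext (by simp [mul_add, add_mul])
  commutes' c := Subtype.ext (by
    show u * (algebraMap ℂ (H →L[ℂ] H) c) * u = algebraMap ℂ (H →L[ℂ] H) c
    rw [Algebra.algebraMap_eq_smul_one, mul_smul_comm, mul_one, smul_mul_assoc, hu.2.2.1])
  map_star' a := Subtype.ext (by
    show u * star a.1 * u = star (u * a.1 * u)
    rw [star_mul, star_mul, hu.2.1.star_eq, mul_assoc])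

/-- the conditional expectation as a linear map `S.M → S.A` -/
def real_glue_E (S : StData H) : S.MB →ₗ[ℂ] ↥S.A where
  toFun x := ⟨S.EA x.1, st_EA_mem S x.2⟩
  map_add' x y := Subtype.ext (st_EA_add S x.2 y.2)
  map_smul' c x := Subtype.ext (st_EA_smul S c x.2)

/-- the state on `S.A` -/
def real_glue_phi (S : StData H) : ↥S.A →ₗ[ℂ] ℂ where
  toFun a := S.phi a.1
  map_add' a b := st_phi_add S a.1 b.1
  map_smul' c a := st_phi_smul S c a.1

/-- **the abstract system** of `S` and a family of symmetric unitary normalisers -/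
def real_glue_sys (S : StData H) (hOm : ‖S.Om‖ = 1) {D : ℕ} (u : Fin D → H →L[ℂ] H)
    (hu : ∀ k, S.IsSym (u k)) : RlSys ↥S.A S.MB D where
  ι := StarSubalgebra.inclusion (real_glue_le S)
  E := real_glue_E S
  E_ι_mul := fun a b => Subtype.ext (st_EA_mul_left S a.2 b.2)
  E_mul_ι := fun b a => Subtype.ext (st_EA_mul_right S a.2 b.2)
  E_one := Subtype.ext (st_EA_of_mem S S.A.one_mem)
  E_star := fun b => Subtype.ext (st_EA_star S b.2)
  E_pos := fun b => real_glue_sq S (st_EA_mem S (star b * b).2)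
    (st_EA_nonneg S (star b * b).2 (star_mul_self_nonneg b.1))
  φ := real_glue_phi S
  φ_one := by
    show S.phi 1 = 1
    rw [StData.phi, one_apply_eq_self, inner_self_eq_norm_sq_to_K, hOm]
    simp
  φ_pos := fun a => ⟨‖a.1 S.Om‖ ^ 2, by positivity, st_phi_star_mul_self S a.1⟩
  φ_faithful := fun a h => Subtype.ext (st_phi_faithful S (st_A_le_M S a.2) h)
  u := fun k => ⟨u k, (hu k).1⟩
  u_star := fun k => Subtype.ext (hu k).2.1.star_eq
  u_sq := fun k => Subtype.ext (hu k).2.2.1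
  α := fun k => real_glue_alpha S (hu k)
  u_conj := fun _ _ => rfl
  E_conj := fun k b => Subtype.ext (by
    have h := st_EA_conj S (st_sym_GN S (hu k)) b.2
    rw [(hu k).2.1.star_eq] at h
    exact h)
  k := fun k => ⟨(hu k).2.2.2.2.choose, (hu k).2.2.2.2.choose_spec.1⟩
  k_pos := fun k => real_glue_sq S _ (hu k).2.2.2.2.choose_spec.2.1
  k_spec := fun k a => by
    have h := (hu k).2.2.2.2.choose_spec.2.2 a.1 (st_A_le_M S a.2)
    rw [(hu k).2.1.star_eq] at h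
    exact h
  fix := fun g => by
    obtain ⟨e, c, f, he, hf, hsum, h1, h2⟩ := real_glue_fix S u hu g
    refine ⟨e, c, f, he, hf, hsum, Subtype.ext ?_, fun i => Subtype.ext ?_⟩
    · show ((g.map fun k => (⟨u k, (hu k).1⟩ : S.MB)).prod : S.MB).1 * e.1 = c.1
      rw [real_glue_coe_prod S u (fun k => (hu k).1) g, h1]
    · show (f i).1 * ((g.map fun k => (⟨u k, (hu k).1⟩ : S.MB)).prod : S.MB).1 * (f i).1 = 0
      rw [real_glue_coe_prod S u (fun k => (hu k).1) g, h2]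
  approx := real_glue_approx S

theorem real_glue_coe_U (S : StData H) (hOm : ‖S.Om‖ = 1) {D : ℕ} (u : Fin D → H →L[ℂ] H)
    (hu : ∀ k, S.IsSym (u k)) (g : List (Fin D)) :
    (((real_glue_sys S hOm u hu).U g : S.MB) : H →L[ℂ] H) = real_glue_U u g :=
  real_glue_coe_prod S u (fun k => (hu k).1) g

theorem real_glue_coe_beta (S : StData H) (hOm : ‖S.Om‖ = 1) {D : ℕ} (u : Fin D → H →L[ℂ] H)
    (hu : ∀ k, S.IsSym (u k)) (g : List (Fin D)) (a : ↥S.A) :
    (((real_glue_sys S hOm u hu).β g a : ↥S.A) : H →L[ℂ] H) =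
      star (real_glue_U u g) * a.1 * real_glue_U u g := by
  have h := congrArg Subtype.val ((real_glue_sys S hOm u hu).ι_β g a)
  rw [← real_glue_coe_U S hOm u hu g]
  exact h.symm

theorem real_glue_normU_star (S : StData H) {v : H →L[ℂ] H} (hv : S.IsNormU v) : S.IsNormU (star v) := by
  obtain ⟨h1, h2, h3, h4, h5⟩ := hv
  exact ⟨star_mem h1, by rw [star_star, h3], by rw [star_star, h2],
    fun a ha => by rw [star_star]; exact h5 a ha, fun a ha => by rw [star_star]; exact h4 a ha⟩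

/-- abstract cylinder functions extend to operator cylinder functions -/
theorem real_glue_cyl (S : StData H) (hOm : ‖S.Om‖ = 1) {D : ℕ} (u : Fin D → H →L[ℂ] H)
    (hu : ∀ k, S.IsSym (u k)) {b : (ℕ → ↥S.A) → ↥S.A} (hb : RlIsCyl (real_glue_sys S hOm u hu) b) :
    ∃ b' : (ℕ → H →L[ℂ] H) → H →L[ℂ] H, OpCyl S b' ∧
      ∀ w : ℕ → ↥S.A, b' (fun k => (w k : H →L[ℂ] H)) = (b w : H →L[ℂ] H) := by
  induction hb with
  | const a => exact ⟨fun _ => a.1, OpCyl.const a.1 a.2, fun _ => rfl⟩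
  | site g k =>
    refine ⟨_, OpCyl.site (star (real_glue_U u g)) (real_glue_normU_star S (real_glue_normU S u hu g)) k,
      fun w => ?_⟩
    rw [real_glue_coe_beta, star_star]
  | add _ _ ih ih' =>
    obtain ⟨b₁, h₁, e₁⟩ := ih
    obtain ⟨b₂, h₂, e₂⟩ := ih'
    exact ⟨_, OpCyl.add h₁ h₂, fun w => by simp only [e₁, e₂]; rfl⟩
  | mul _ _ ih ih' =>
    obtain ⟨b₁, h₁, e₁⟩ := ih
    obtain ⟨b₂, h₂, e₂⟩ := ih'
    exact ⟨_, OpCyl.mul h₁ h₂, fun w => by simp only [e₁, e₂]; rfl⟩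

theorem real_glue_pou (S : StData H) {r : ℕ} {p : Fin r → ↥S.A} (hp : RlIsPOU p) :
    OpIsPOU S.A (fun i => (p i : H →L[ℂ] H)) := by
  refine ⟨fun i => ⟨(p i).2, real_glue_proj_coe S (hp.1 i)⟩,
    fun i j hij => congrArg Subtype.val (hp.2.1 i j hij), ?_⟩
  have := congrArg Subtype.val hp.2.2
  simpa using this

/-- the cells of a partition as a family in `S.A` -/
def real_glue_cells {S : StData H} (P : StPart S) : P.cells → ↥S.A := fun c => ⟨c.1, (P.proj c.1 c.2).1⟩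

theorem real_glue_cells_pou {S : StData H} (P : StPart S) : RlIsPOU (real_glue_cells P) := by
  refine ⟨fun c => real_glue_proj S _ (P.proj c.1 c.2).2, fun c c' hcc => Subtype.ext ?_,
    Subtype.ext ?_⟩
  · exact P.orth c.1 c.2 c'.1 c'.2 fun h => hcc (Subtype.ext h)
  · have h1 : ((∑ c : P.cells, real_glue_cells P c : ↥S.A) : H →L[ℂ] H) = ∑ c : P.cells, c.1 := by
      simp [real_glue_cells]
    rw [h1, Finset.sum_coe_sort P.cells (fun e => e), P.sum_eq]
    rfl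

theorem real_glue_rand {S : StData H} (P : StPart S) (t : ℕ) (om : P.cells → Fin t → Bool) (k : ℕ) :
    opRand P t om k = ((rlRand (real_glue_cells P) t om k : ↥S.A) : H →L[ℂ] H) := by
  unfold opRand rlRand
  split_ifs with h
  · have : ((∑ c : P.cells, (if om c ⟨k, h⟩ then (1 : ℂ) else -1) • real_glue_cells P c : ↥S.A) :
        H →L[ℂ] H) = ∑ c : P.cells, (if om c ⟨k, h⟩ then (1 : ℂ) else -1) • (c : H →L[ℂ] H) := by
      rw [AddSubmonoidClass.coe_finsetSum]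
      rfl
    rw [this]
  · rfl

/-- fine partitions refine a given finite family of projections -/
theorem real_glue_refines (S : StData H) (𝓕 : Finset ↥S.A) (h𝓕 : ∀ f ∈ 𝓕, IsStarProjection f) :
    ∃ P₀ : StPart S, ∀ P : StPart S, P₀ ≤ P → RlRefines (real_glue_cells P) 𝓕 := by
  classical
  induction 𝓕 using Finset.induction_on with
  | empty => exact ⟨(st_part_nonempty S).some, fun P _ c f hf => absurd hf (Finset.notMem_empty f)⟩
  | insert f 𝓕 _ ih =>
    obtain ⟨P₁, h₁⟩ := ih fun f' hf' => h𝓕 f' (Finset.mem_insert_of_mem hf')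
    obtain ⟨P₂, h₂, -⟩ := st_part_of_proj S
      (⟨f.2, real_glue_proj_coe S (h𝓕 f (Finset.mem_insert_self _ _))⟩ : S.IsProjA f.1)
    obtain ⟨P₀, h01, h02⟩ := st_part_sup S P₁ P₂
    refine ⟨P₀, fun P hP c f' hf' => ?_⟩
    rcases Finset.mem_insert.1 hf' with rfl | hf'
    · obtain ⟨e, he, hec⟩ := (st_part_trans S h02 hP) c.1 c.2
      by_cases hef : e = f'.1
      · left
        rw [mul_comm]
        apply Subtype.ext
        show f'.1 * c.1 = c.1
        rw [← hef, hec]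
      · right
        apply Subtype.ext
        show c.1 * f'.1 = 0
        have h0 : e * f'.1 = 0 := P₂.orth e he f'.1 h₂ hef
        have hcomm : e * c.1 = c.1 * e := st_A_comm S (P₂.proj e he).1 (P.proj c.1 c.2).1
        rw [← hec, hcomm, mul_assoc, h0, mul_zero]
    · exact h₁ P (st_part_trans S h01 hP) c f' hf'

theorem real_glue_half_nonneg {y : H →L[ℂ] H} (hsa : IsSelfAdjoint y) (hn : ‖y‖ ≤ 2) :
    0 ≤ 1 - (1 / 2 : ℂ) • y ∧ 0 ≤ 1 + (1 / 2 : ℂ) • y := by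
  have h1 : y ≤ algebraMap ℝ (H →L[ℂ] H) ‖y‖ := hsa.le_algebraMap_norm_self
  have h2 : -algebraMap ℝ (H →L[ℂ] H) ‖y‖ ≤ y := hsa.neg_algebraMap_norm_le_self
  have h3 : algebraMap ℝ (H →L[ℂ] H) ‖y‖ ≤ algebraMap ℝ (H →L[ℂ] H) 2 := algebraMap_mono _ hn
  have h4 : algebraMap ℝ (H →L[ℂ] H) 2 = 2 := by
    rw [Algebra.algebraMap_eq_smul_one]
    norm_num [two_smul, ofNat_smul_eq_nsmul]
  have e : (1 / 2 : ℂ) • y = (1 / 2 : ℝ) • y := by
    rw [← Complex.coe_smul]; norm_num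
  rw [h4] at h3
  have h5 : y ≤ 2 := h1.trans h3
  have h6 : -2 ≤ y := (neg_le_neg h3).trans h2
  have h7 : (1 / 2 : ℝ) • y ≤ (1 / 2 : ℝ) • (2 : H →L[ℂ] H) := smul_le_smul_of_nonneg_left h5 (by norm_num)
  have h8 : (1 / 2 : ℝ) • (-2 : H →L[ℂ] H) ≤ (1 / 2 : ℝ) • y := smul_le_smul_of_nonneg_left h6 (by norm_num)
  have h9 : (1 / 2 : ℝ) • (2 : H →L[ℂ] H) = 1 := by
    rw [show (2 : H →L[ℂ] H) = (2 : ℝ) • 1 by rw [two_smul, one_add_one_eq_two], smul_smul]; norm_num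
  rw [smul_neg, h9] at h8
  rw [h9] at h7
  rw [e]
  constructor
  · exact sub_nonneg.2 h7
  · have h10 : (0 : H →L[ℂ] H) ≤ (1 / 2 : ℝ) • y - (-1) := sub_nonneg.2 h8
    rwa [sub_neg_eq_add, add_comm] at h10

theorem real_glue_isKer (S : StData H) (hOm : ‖S.Om‖ = 1) {D : ℕ} (a u : Fin D → H →L[ℂ] H)
    (ha : ∀ k, a k ∈ S.A) (hu : ∀ k, S.IsSym (u k)) {y : H →L[ℂ] H} (hy : y = ∑ k, a k * u k)
    (hyM : y ∈ S.M) (hsa : IsSelfAdjoint y) (hn : ‖y‖ ≤ 2) (hE : S.EA y = 0) :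
    (real_glue_sys S hOm u hu).IsKer ((1 / 2 : ℂ) • (⟨y, hyM⟩ : S.MB)) where
  sa := Subtype.ext (by
    show star ((1 / 2 : ℂ) • y) = (1 / 2 : ℂ) • y
    rw [star_smul, hsa.star_eq]
    congr 1
    simp)
  E_zero := by
    rw [map_smul]
    have : (real_glue_sys S hOm u hu).E (⟨y, hyM⟩ : S.MB) = 0 := Subtype.ext hE
    rw [this, smul_zero]
  coeff := ⟨fun k => (1 / 2 : ℂ) • (⟨a k, ha k⟩ : ↥S.A), Subtype.ext (by
    have h1 : ((∑ j, (real_glue_sys S hOm u hu).ι ((1 / 2 : ℂ) • (⟨a j, ha j⟩ : ↥S.A)) *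
        (real_glue_sys S hOm u hu).u j : S.MB) : H →L[ℂ] H) = ∑ j, ((1 / 2 : ℂ) • a j) * u j := by
      rw [AddSubmonoidClass.coe_finsetSum]
      rfl
    rw [h1]
    show (1 / 2 : ℂ) • y = _
    rw [hy, Finset.smul_sum]
    exact Finset.sum_congr rfl fun j _ => (smul_mul_assoc _ _ _).symm)⟩
  le_one := fun b => real_glue_sq S (st_EA_mem S (star b * (1 - (1 / 2 : ℂ) • (⟨y, hyM⟩ : S.MB)) * b).2)
    (st_EA_nonneg S (star b * (1 - (1 / 2 : ℂ) • (⟨y, hyM⟩ : S.MB)) * b).2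
      (star_left_conjugate_nonneg (real_glue_half_nonneg hsa hn).1 b.1))
  neg_one_le := fun b => real_glue_sq S (st_EA_mem S (star b * (1 + (1 / 2 : ℂ) • (⟨y, hyM⟩ : S.MB)) * b).2)
    (st_EA_nonneg S (star b * (1 + (1 / 2 : ℂ) • (⟨y, hyM⟩ : S.MB)) * b).2
      (star_left_conjugate_nonneg (real_glue_half_nonneg hsa hn).2 b.1))

/-- the moment of the operator pinching in terms of the abstract one -/
theorem real_glue_moment (S : StData H) (hOm : ‖S.Om‖ = 1) {D : ℕ} (u : Fin D → H →L[ℂ] H)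
    (hu : ∀ k, S.IsSym (u k)) {y : H →L[ℂ] H} (hyM : y ∈ S.M) {r : ℕ} (p : Fin r → ↥S.A) (n : ℕ) :
    S.phi ((∑ i, (p i : H →L[ℂ] H) * (1 * y * 1) * (p i : H →L[ℂ] H)) ^ (2 * n)) =
      (2 : ℂ) ^ (2 * n) * (real_glue_sys S hOm u hu).φ ((real_glue_sys S hOm u hu).E
        ((real_glue_sys S hOm u hu).pin p ((1 / 2 : ℂ) • (⟨y, hyM⟩ : S.MB)) ^ (2 * n))) := by
  set z := (real_glue_sys S hOm u hu).pin p ((1 / 2 : ℂ) • (⟨y, hyM⟩ : S.MB)) with hz
  have h1 : (z : H →L[ℂ] H) = ∑ i, (p i : H →L[ℂ] H) * ((1 / 2 : ℂ) • y) * (p i : H →L[ℂ] H) := by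
    rw [hz, RlSys.pin, AddSubmonoidClass.coe_finsetSum]
    rfl
  have h2 : (∑ i, (p i : H →L[ℂ] H) * (1 * y * 1) * (p i : H →L[ℂ] H)) = (2 : ℂ) • (z : H →L[ℂ] H) := by
    rw [h1, Finset.smul_sum]
    refine Finset.sum_congr rfl fun i _ => ?_
    rw [one_mul, mul_one, mul_smul_comm, smul_mul_assoc, smul_smul]
    norm_num
  have h3 : (real_glue_sys S hOm u hu).φ ((real_glue_sys S hOm u hu).E (z ^ (2 * n))) =
      S.phi ((z : H →L[ℂ] H) ^ (2 * n)) := by
    show S.phi (S.EA ((z ^ (2 * n) : S.MB) : H →L[ℂ] H)) = _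
    rw [st_phi_EA S (z ^ (2 * n)).2]
    rfl
  rw [h2, h3, smul_pow, st_phi_smul]

/-- **(COL)**, the interface consumed by TR. -/
theorem real_col (hcol : ColTheorem.{u, u}) (S : StData H) (hOm : ‖S.Om‖ = 1) (a : ℕ) {ε : ℝ} (hε : 0 < ε)
    (hnum : 1280 / Real.sqrt ((2 ^ a : ℕ) : ℝ) + ε / 16 ≤ ε / 4) : OpColHyp S (2 ^ a) ε := by
  classical
  intro y hy hsa hn hE n _ η hη
  obtain ⟨D, av, u, hav, hu, hyrep⟩ := st_Nalg_repr S hy
  have hyM := st_Nalg_le_M S hy
  have hker := real_glue_isKer S hOm av u hav hu hyrep hyM hsa hn hE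
  have hrpos : 0 < Real.sqrt ((2 ^ a : ℕ) : ℝ) := Real.sqrt_pos.2 (by positivity)
  have ht : 3 / Real.sqrt ((2 ^ a : ℕ) : ℝ) < 4 / Real.sqrt ((2 ^ a : ℕ) : ℝ) := by gcongr; norm_num
  have hη' : 0 < min η (2 * (ε / 16) ^ (2 * n)) := lt_min hη (by positivity)
  obtain ⟨L, b, 𝓕, h𝓕, hcyl, hpou, hmain⟩ := real_col_abs hcol (real_glue_sys S hOm u hu) hker ⟨a, rfl⟩ ht n
    (α := ε / 32) (by positivity) hη'
  choose b' hb'cyl hb'eq using fun i => real_glue_cyl S hOm u hu (hcyl i)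
  obtain ⟨P₀, hP₀⟩ := real_glue_refines S 𝓕 h𝓕
  have hrand : ∀ (P : StPart S) (t : ℕ) (om : P.cells → Fin t → Bool) (i : Fin (2 ^ a)),
      b' i (opRand P t om) = (b i (rlRand (real_glue_cells P) t om) : H →L[ℂ] H) := by
    intro P t om i
    rw [← hb'eq i]
    congr 1
    funext k
    exact real_glue_rand P t om k
  refine ⟨1, S.A.one_mem, ⟨by simp [IsIdempotentElem], by simp [IsSelfAdjoint]⟩, by simpa using hη, b', hb'cyl, ?_, ?_, ?_⟩
  · intro w hw
    have hw' : RlIsSymFam fun k => (⟨w k, (hw k).1⟩ : ↥S.A) :=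
      fun k => ⟨Subtype.ext (hw k).2.1, Subtype.ext (hw k).2.2⟩
    have h1 := real_glue_pou S (hpou _ hw')
    have h2 : (fun i => b' i w) = fun i => (b i (fun k => (⟨w k, (hw k).1⟩ : ↥S.A)) : H →L[ℂ] H) := by
      funext i
      exact hb'eq i (fun k => (⟨w k, (hw k).1⟩ : ↥S.A))
    rw [h2]
    exact h1
  · intro i a' ha' hna'
    refine (eventually_ge_atTop (P₀, L)).mono fun Pt hPt => ?_
    have h1 := (hmain Pt.1.cells (real_glue_cells Pt.1) (real_glue_cells_pou _) (hP₀ _ hPt.1) Pt.2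
      hPt.2).1 i ⟨a', ha'⟩ hna'
    refine le_trans (le_of_eq ?_) (h1.trans (min_le_left _ _))
    unfold opAvg
    simp_rw [hrand]
    push_cast
    rfl
  · refine (eventually_ge_atTop (P₀, L)).mono fun Pt hPt => ?_
    have h1 := (hmain Pt.1.cells (real_glue_cells Pt.1) (real_glue_cells_pou _) (hP₀ _ hPt.1) Pt.2
      hPt.2).2
    unfold opAvg
    simp_rw [hrand, real_glue_moment S hOm u hu hyM]
    rw [← Finset.mul_sum, mul_div_assoc]
    have h2 : ((2 : ℂ) ^ (2 * n)) = (((2 : ℝ) ^ (2 * n) : ℝ) : ℂ) := by push_cast; rfl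
    rw [h2, Complex.re_ofReal_mul]
    have h3 : 0 ≤ 160 * (4 / Real.sqrt ((2 ^ a : ℕ) : ℝ)) + ε / 32 := by positivity
    have h4 : 2 * (160 * (4 / Real.sqrt ((2 ^ a : ℕ) : ℝ)) + ε / 32) ≤ ε / 4 := by
      have : 2 * (160 * (4 / Real.sqrt ((2 ^ a : ℕ) : ℝ)) + ε / 32) =
          1280 / Real.sqrt ((2 ^ a : ℕ) : ℝ) + ε / 16 := by ring
      rw [this]; exact hnum
    calc (2 : ℝ) ^ (2 * n) * _ ≤ (2 : ℝ) ^ (2 * n) *
          ((160 * (4 / Real.sqrt ((2 ^ a : ℕ) : ℝ)) + ε / 32) ^ (2 * n) + min η (2 * (ε / 16) ^ (2 * n))) := by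
          gcongr
      _ ≤ (2 : ℝ) ^ (2 * n) *
          ((160 * (4 / Real.sqrt ((2 ^ a : ℕ) : ℝ)) + ε / 32) ^ (2 * n) + 2 * (ε / 16) ^ (2 * n)) := by
          gcongr; exact min_le_right _ _
      _ = (2 * (160 * (4 / Real.sqrt ((2 ^ a : ℕ) : ℝ)) + ε / 32)) ^ (2 * n) +
          2 ^ (2 * n + 1) * (ε / 16) ^ (2 * n) := by rw [mul_pow]; ring
      _ ≤ (ε / 4) ^ (2 * n) + 2 ^ (2 * n + 1) * (ε / 16) ^ (2 * n) := by
          gcongr

end
end Claimed.Agent.R302
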